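import Vale.Agent.P354XV.Defs
import Vale.Agent.P354LC.Defs

/-!
The local existence statement of the continuation argument follows from the one with lenses.
-/

open scoped ContDiff
open Set Filter Topology

noncomputable section

namespace Vale.Agent.P354DT

open Vale.Agent.P354n (R4 mink IsConn)
open Vale.Agent.P354I (X Dat ee pd)
open Vale.Agent.P354R (Met Vac chr)
open Vale.Agent.P354XE (Tw pt xs eT Bd Lor)
open Vale.Agent.P354XU (Jt)
open Vale.Agent.P354YC (IndAt)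
open Vale.Agent.P354XV (DB Nice In0 CnAt ovr)
open Vale.Agent.P354LC (Dif Adm Sol Lens eu)

variable {m : ℕ} {B : ℝ} {d : Dat}

theorem db_one (h : DB m B d) : 1 ≤ B := by
  have a := h.pos (EuclideanSpace.single 0 B) (Pi.single 0 1)
  rw [(h.fl _ (by simp [le_abs_self])).1] at a
  simpa [Fin.sum_univ_three] using a

theorem db_adm (h : DB m B d) : Adm B (max B 1)⁻¹ d := by
  have b := db_one h
  refine ⟨h.sm, h.sy, fun y v => ?_, h.fl⟩
  rw [max_eq_left b, inv_mul_le_iff₀ (by linarith)]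
  refine (h.pos y v).trans (le_of_eq ?_)
  simp only [mul_comm (v _) (d.h y _ _)]

theorem jt_sub {f : X → ℝ} {c : ℝ} {y : X} (s : ContDiff ℝ ∞ f) (h : Jt m f y B) (hc : |c| ≤ 1)
    {j : ℕ} (hj : j ≤ m) : ‖iteratedFDeriv ℝ j (fun z => f z - c) y‖ ≤ B + 1 := by
  have e : iteratedFDeriv ℝ j (fun z => f z - c) y =
      iteratedFDeriv ℝ j f y - iteratedFDeriv ℝ j (fun _ => c) y :=
    iteratedFDeriv_sub_apply (s.contDiffAt.of_le (by exact_mod_cast le_top)) contDiffAt_const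
  rw [e]
  refine (norm_sub_le _ _).trans (add_le_add (h j hj) ?_)
  rcases Nat.eq_zero_or_pos j with rfl | k
  · simpa using hc
  · rw [iteratedFDeriv_const_of_ne k.ne']; simp

theorem db_dif (h : DB m B d) {j : ℕ} (hj : j ≤ m) : Dif j (B + 1) d eu := fun i hi a b y =>
  ⟨jt_sub (c := (1 : Matrix (Fin 3) (Fin 3) ℝ) a b) (h.sm a b).1 (h.bd y a b).1 (by
      rw [Matrix.one_apply]; split_ifs <;> simp) (hi.trans hj),
    jt_sub (c := 0) (h.sm a b).2 (h.bd y a b).2 (by simp) (hi.trans hj)⟩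

theorem bd_mono {k : ℕ} {g : Tw} {p : R4} {C C' : ℝ} (h : Bd k g p C) (e : C ≤ C') :
    Bd k g p C' := fun j hj v w => (h j hj v w).trans (by gcongr)

/-- The map y to (0, y). -/
def ptL : X →L[ℝ] R4 := (0 : X →L[ℝ] ℝ).prod ((EuclideanSpace.proj 0).prod
  ((EuclideanSpace.proj 1).prod (EuclideanSpace.proj 2)))

theorem pd_pt (i : Fin 3) : pd i (pt 0) = fun _ => pt 0 (ee i) := by
  funext y
  exact congrArg (· (ee i)) (ptL.fderiv (x := y))

variable {δ c : ℝ} {g : Tw} {n : R4 → R4}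

theorem sol_in0 (S : Sol d δ c g n) (hδ : 0 < δ) (hc : 0 < c) (y : X) : In0 g d y := by
  obtain ⟨G, u, hG, h1, h2, h3⟩ := S.ind y
  have hy : pt 0 y ∈ P354LC.slab δ := by simpa [P354LC.slab, pt] using hδ
  obtain ⟨a1, -, a3⟩ := S.nor _ hy
  refine ⟨u, h1, ?_, fun i k => ?_⟩
  · have := a3 u
    nlinarith [mul_pos (hc.trans_le a1) (neg_pos.2 h2)]
  · obtain ⟨b1, b2, b3⟩ := h3 i k
    simp only [pd_pt] at b1 b2 b3
    refine ⟨b1, b2, ?_⟩
    have z : pd i (fun _ : X => pt 0 (ee k)) y = 0 := by simp [pd]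
    rw [z, zero_add, S.met.symm _ hy] at b3
    have := hG (pt 0 (ee i)) (pt 0 (ee k)) u
    rw [← b3, chr, ← this]
    ring

theorem sol_nice {k : ℕ} {C : ℝ} {p : R4} (S : Sol d δ c g n) (hc : 0 < c)
    (hp : p ∈ P354LC.slab δ) (b : Bd k g p C) (c1 : 1 ≤ C) (c2 : c⁻¹ ≤ C) :
    Nice k C g Prod.fst p := by
  obtain ⟨a1, a2, a3⟩ := S.nor _ hp
  have n0 := hc.trans_le a1
  refine ⟨b, fun v hv => ?_, n p, a2.trans c2, ?_⟩
  · rw [fderiv_fst] at hv
    have v1 : v.1 = 0 := hv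
    have z : g p v (n p) = 0 := by
      have := a3 v
      rw [v1, neg_zero] at this
      exact (mul_eq_zero.1 this).resolve_left n0.ne'
    have e := S.pos p hp v
    rw [z] at e
    have e1 : ‖v‖ ^ 2 ≤ c⁻¹ * g p v v := by
      rw [le_inv_mul_iff₀ hc]; linarith
    have e2 : 0 ≤ g p v v := by nlinarith [mul_nonneg hc.le (sq_nonneg ‖v‖)]
    exact e1.trans (by gcongr)
  · have : g p (n p) (n p) = -1 := mul_left_cancel₀ n0.ne' (by rw [a3]; ring)
    rw [this]; linarith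

/-- The speed of light is bounded. -/
theorem sol_speed {p v : R4} (S : Sol d δ c g n) (hc : 0 < c) (hp : p ∈ P354LC.slab δ)
    (h : g p v v ≤ 0) (h1 : 0 < v.1) : ‖v‖ ≤ (2 / c ^ 3 + 1) * v.1 := by
  obtain ⟨a1, -, a3⟩ := S.nor _ hp
  have e := S.pos p hp v
  have e1 : c ^ 2 * g p v (n p) ^ 2 ≤ v.1 ^ 2 := by
    calc c ^ 2 * g p v (n p) ^ 2 ≤ (n p).1 ^ 2 * g p v (n p) ^ 2 := by gcongr
      _ = v.1 ^ 2 := by rw [← mul_pow, a3, neg_sq]
  have e2 : ‖v‖ ^ 2 ≤ 2 / c ^ 3 * v.1 ^ 2 := by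
    rw [div_mul_eq_mul_div, le_div_iff₀ (by positivity)]
    nlinarith [mul_le_mul_of_nonneg_left e (sq_nonneg c), mul_nonneg (sq_nonneg c) (neg_nonneg.2 h)]
  have e3 : 0 ≤ 2 / c ^ 3 := by positivity
  refine abs_le_of_sq_le_sq' (e2.trans ?_) (by positivity) |>.2
  rw [mul_pow]
  gcongr
  nlinarith

/-- The space coordinates. -/
def co : Fin 3 → R4 →L[ℝ] ℝ :=
  ![(ContinuousLinearMap.fst ℝ _ _).comp (ContinuousLinearMap.snd ℝ _ _),
    (ContinuousLinearMap.fst ℝ _ _).comp ((ContinuousLinearMap.snd ℝ _ _).comp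
      (ContinuousLinearMap.snd ℝ _ _)),
    (ContinuousLinearMap.snd ℝ _ _).comp ((ContinuousLinearMap.snd ℝ _ _).comp
      (ContinuousLinearMap.snd ℝ _ _))]

theorem co_le (j : Fin 3) (v : R4) : |co j v| ≤ ‖v‖ := by
  have a := norm_snd_le v
  have b := norm_snd_le v.2
  fin_cases j
  · exact (norm_fst_le v.2).trans a
  · exact (norm_fst_le v.2.2).trans (b.trans a)
  · exact (norm_snd_le v.2.2).trans (b.trans a)

theorem co_pt (j : Fin 3) (t : ℝ) (y : X) : co j (pt t y) = y j := by fin_cases j <;> rfl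
theorem co_xs (j : Fin 3) (p : R4) : co j p = xs p j := by fin_cases j <;> rfl

theorem xs_cont : Continuous xs := by unfold xs; fun_prop

theorem lens_of {p : R4} {s r : ℝ} (S : Sol d δ c g n) (hc : 0 < c) (hp : |p.1| < δ)
    (hs : s = 1 ∨ s = -1) (e : s * p.1 = |p.1|) (hr : 2 * (2 / c ^ 3 + 1) * |p.1| < r)
    (hU : ∀ y ∈ Metric.ball (xs p) r, CnAt d y) : Lens g d δ s p := by
  set c0 := 2 / c ^ 3 + 1 with hc0
  have p0 : 0 < c0 := by positivity
  have ss : s * s = 1 := by rcases hs with rfl | rfl <;> norm_num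
  have sa : |s| = 1 := by rcases hs with rfl | rfl <;> norm_num
  let σ : Bool → ℝ := fun b => if b then 1 else -1
  have σa : ∀ b, |σ b| = 1 := by intro b; cases b <;> simp [σ]
  let L : Fin 3 × Bool → R4 →L[ℝ] ℝ := fun i =>
    σ i.2 • co i.1 + (c0 * s) • ContinuousLinearMap.fst ℝ _ _
  have hL : ∀ i q, L i q = σ i.2 * co i.1 q + c0 * (s * q.1) := fun i q => by
    simp [L, mul_assoc]
  have key : ∀ q : R4, 0 ≤ s * q.1 → (∀ i, L i q - (σ i.2 * co i.1 p + r / 2) < 0) →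
      ∀ j, |co j q - co j p| < r / 2 := fun q h0 h j => by
    have a := h (j, true)
    have b := h (j, false)
    simp only [hL, σ, if_true, Bool.false_eq_true, if_false] at a b
    have := mul_nonneg p0.le h0
    rw [abs_lt]; constructor <;> linarith
  refine ⟨Fin 3 × Bool, inferInstance, fun i q => L i q - (σ i.2 * co i.1 p + r / 2), |p.1|,
    Icc (-|p.1|) |p.1| ×ˢ Metric.closedBall p.2 (r / 2), isCompact_Icc.prod
      (isCompact_closedBall _ _), fun q hq => (abs_le.2 hq.1).trans_lt hp,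
    fun i => ((L i).contDiff.sub contDiff_const), fun q hq h => ?_, fun y h => hU y ?_,
    ⟨by rw [e]; positivity, e.le⟩, fun i => ?_⟩
  · have q1 : |q.1| ≤ |p.1| := by
      rw [← one_mul |q.1|, ← sa, ← abs_mul, abs_of_nonneg hq.1]; exact hq.2
    have k := key q hq.1 h
    refine ⟨⟨abs_le.1 q1, ?_⟩, fun i v h1 h2 => ?_⟩
    · simp only [Metric.mem_closedBall, Prod.dist_eq, max_le_iff, Real.dist_eq]
      exact ⟨(k 0).le, (k 1).le, (k 2).le⟩
    · rw [fderiv_sub_const, (L i).fderiv, hL]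
      have a := sol_speed S hc (q1.trans_lt hp) h1 h2
      have b : |s * (σ i.2 * co i.1 v)| ≤ ‖v‖ := by
        rw [abs_mul, abs_mul, sa, σa, one_mul, one_mul]; exact co_le _ _
      have := (abs_le.1 b).1
      have z : s * (σ i.2 * co i.1 v + c0 * (s * v.1)) =
          s * (σ i.2 * co i.1 v) + (s * s) * (c0 * v.1) := by ring
      rw [z, ss]; linarith
  · have k := key (pt 0 y) (by simp [pt]) h
    simp only [co_pt, co_xs _ p] at k
    have r0 : 0 < r := lt_of_le_of_lt (by positivity) hr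
    rw [Metric.mem_ball, EuclideanSpace.dist_eq, Real.sqrt_lt' r0, Fin.sum_univ_three]
    simp only [Real.dist_eq]
    have := fun j => pow_lt_pow_left₀ (k j) (abs_nonneg _) two_ne_zero
    nlinarith [this 0, this 1, this 2]
  · show L i p - _ < 0
    rw [hL, e]; linarith

theorem sol_vac {U : Set X} (S : Sol d δ c g n) (hc : 0 < c) (hU : IsOpen U)
    (h : ∀ y ∈ U, CnAt d y) : Vac g (ovr δ (2 * (2 / c ^ 3 + 1)) U) := by
  set c0 := 2 * (2 / c ^ 3 + 1) with hc0
  have p0 : 0 < c0 := by positivity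
  let D : Set R4 := {p | |p.1| < δ ∧ ∃ r, c0 * |p.1| < r ∧ Metric.ball (xs p) r ⊆ U}
  have o : IsOpen D := by
    refine isOpen_iff_mem_nhds.2 fun p ⟨h1, r, h2, h3⟩ => ?_
    have a : ∀ᶠ q : R4 in 𝓝 p, |q.1| < δ :=
      (by fun_prop : Continuous fun q : R4 => |q.1|).continuousAt.eventually_lt
        continuousAt_const h1
    have b : ∀ᶠ q : R4 in 𝓝 p, c0 * |q.1| < r - dist (xs q) (xs p) :=
      (by fun_prop : Continuous fun q : R4 => c0 * |q.1|).continuousAt.eventually_lt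
        (continuous_const.sub (xs_cont.dist continuous_const)).continuousAt (by simpa using h2)
    filter_upwards [a, b] with q a b
    exact ⟨a, _, b, (Metric.ball_subset_ball' (by linarith)).trans h3⟩
  have l := S.lor D o (fun p hp => hp.1) fun p ⟨h1, r, h2, h3⟩ => by
    rcases le_total 0 p.1 with k | k
    · exact Or.inl (lens_of S hc h1 (Or.inl rfl) (by rw [one_mul, abs_of_nonneg k]) h2
        fun y hy => h y (h3 hy))
    · exact Or.inr (lens_of S hc h1 (Or.inr rfl) (by rw [abs_of_nonpos k]; ring) h2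
        fun y hy => h y (h3 hy))
  refine l.vac.imp fun _ k p hp => k p ⟨hp.1, ?_⟩
  obtain ⟨ε, e0, e1⟩ := (isCompact_closedBall _ _).exists_thickening_subset_open hU hp.2
  rw [thickening_closedBall e0 (by positivity)] at e1
  exact ⟨_, by linarith, e1⟩

theorem loc_of (h : P354LC.LOC) : P354XV.LOC := by
  refine fun k => ⟨k + 12, fun B => ?_⟩
  obtain ⟨δ, d0, c, c0, g, n, h1, h2⟩ := h B (max B 1)⁻¹ (B + 1) (by positivity)
  obtain ⟨C, hC⟩ := h2 k (B + 1)
  have e1 : C ≤ |C| + c⁻¹ + 1 := by linarith [le_abs_self C, inv_pos.2 c0]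
  refine ⟨δ, d0, 2 * (2 / c ^ 3 + 1), by positivity, |C| + c⁻¹ + 1, g, fun d hd => ?_⟩
  have S := h1 d (db_adm hd) (db_dif hd (by omega))
  refine ⟨S.met, fun p hp => ⟨S.sig p hp, sol_nice S c0 hp (bd_mono ((hC d (db_adm hd)
    (db_dif hd (by omega)) (db_dif hd le_rfl)).1 p hp) e1) ?_ ?_⟩, sol_in0 S d0 c0,
    fun U hU k => sol_vac S c0 hU k, fun d' ε hd' e p hp => ?_⟩
  · linarith [abs_nonneg C, inv_pos.2 c0]
  · linarith [abs_nonneg C]
  · have e0 : 0 ≤ ε := (norm_nonneg _).trans ((e 0 0 0).1 0 (Nat.zero_le _))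
    exact bd_mono ((hC d' (db_adm hd') (db_dif hd' (by omega)) (db_dif hd' le_rfl)).2 d ε
      (db_adm hd) (db_dif hd (by omega)) (db_dif hd le_rfl)
      (fun j hj a b y => ⟨(e y a b).1 j hj, (e y a b).2 j hj⟩) p hp) (by gcongr)

end Vale.Agent.P354DT
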