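import Vale.Agent.P354YI.Met

/-!
Jets with polynomial losses.
-/

set_option maxSynthPendingDepth 3

open scoped ContDiff
open Set Filter Topology

noncomputable section

namespace Vale.Agent.P354DT

open Vale.Agent.P354n (R4)
open Vale.Agent.P354RC (B2 bs)
open Vale.Agent.P354XD (tb)
open Vale.Agent.P354XE (Tw Bd)
open Vale.Agent.P354YI (Oj Jb)
open ContinuousLinearMap (compL)

variable {J E V W U : Type} [NormedAddCommGroup E] [NormedSpace ℝ E] [NormedAddCommGroup V]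
  [NormedSpace ℝ V] [NormedAddCommGroup W] [NormedSpace ℝ W] [NormedAddCommGroup U]
  [NormedSpace ℝ U]

/-- The jets of order m of the maps f j at the points x j are at most μ j * H j ^ N. -/
structure Pl (H : J → ℝ) (m : ℕ) (x : J → E) (f : J → E → V) (μ : J → ℝ) : Prop where
  two : ∀ j, 2 ≤ H j
  nn : ∀ j, 0 ≤ μ j
  oj : ∃ N : ℕ, Oj m x f fun j => μ j * H j ^ N

variable {H : J → ℝ} {m m' : ℕ} {x : J → E} {f g : J → E → V} {μ ν : J → ℝ}

theorem pw_le (hH : ∀ j, 2 ≤ H j) (hμ : ∀ j, 0 ≤ μ j) {N M : ℕ} (h : N ≤ M) (j : J) :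
    μ j * H j ^ N ≤ μ j * H j ^ M :=
  mul_le_mul_of_nonneg_left (pow_le_pow_right₀ (one_le_two.trans (hH j)) h) (hμ j)

namespace Pl

theorem of (hH : ∀ j, 2 ≤ H j) (h : Oj m x f μ) : Pl H m x f μ :=
  ⟨hH, h.nn, 0, by simpa using h⟩

theorem of_jb (hH : ∀ j, 2 ≤ H j) (hμ : ∀ j, 0 ≤ μ j) (hs : ∀ j, ContDiffAt ℝ ∞ (f j) (x j))
    (N : ℕ) (h : ∀ j, Jb m (f j) (x j) (μ j * H j ^ N)) : Pl H m x f μ := ⟨hH, hμ, N, .of hs h⟩

theorem sm (h : Pl H m x f μ) (j : J) : ContDiffAt ℝ ∞ (f j) (x j) := h.oj.choose_spec.sm j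

theorem bd (h : Pl H m x f μ) : ∃ N : ℕ, ∀ j, Jb m (f j) (x j) (μ j * H j ^ N) := by
  obtain ⟨N, -, -, C, -, hC⟩ := h.oj
  obtain ⟨n, hn⟩ := pow_unbounded_of_one_lt C (one_lt_two (α := ℝ))
  refine ⟨N + n, fun j => (hC j).mono le_rfl ?_⟩
  rw [pow_add, mul_comm C, ← mul_assoc]
  exact mul_le_mul_of_nonneg_left (hn.le.trans (pow_le_pow_left₀ zero_le_two (h.two j) n))
    (mul_nonneg (h.nn j) (pow_nonneg (zero_le_two.trans (h.two j)) N))

theorem map {y : J → U} {k : J → U → W} (h : Pl H m x f μ)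
    (e : ∀ ν, Oj m x f ν → Oj m' y k ν) : Pl H m' y k μ := ⟨h.two, h.nn, h.oj.imp fun _ => e _⟩

theorem map2 {m1 m2 : ℕ} {k : J → E → W} {l : J → E → U} (h : Pl H m1 x f μ) (h' : Pl H m2 x k μ)
    (e : ∀ ν, Oj m1 x f ν → Oj m2 x k ν → Oj m x l ν) : Pl H m x l μ :=
  let ⟨N, a⟩ := h.oj
  let ⟨M, b⟩ := h'.oj
  ⟨h.two, h.nn, N + M, e _ (a.mono le_rfl (pw_le h.two h.nn (Nat.le_add_right _ _)))
    (b.mono le_rfl (pw_le h.two h.nn (Nat.le_add_left _ _)))⟩

theorem le (h : Pl H m x f μ) (hm : m' ≤ m) : Pl H m' x f μ := h.map fun _ a => a.le hm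
theorem pred (h : Pl H (m + 1) x f μ) : Pl H m x f μ := h.le m.le_succ

theorem mono (h : Pl H m x f μ) (N : ℕ) (hν : ∀ j, 0 ≤ ν j) (e : ∀ j, μ j ≤ ν j * H j ^ N) :
    Pl H m x f ν :=
  let ⟨M, a⟩ := h.oj
  ⟨h.two, hν, N + M, a.mono le_rfl fun j => by
    rw [pow_add, ← mul_assoc]
    exact mul_le_mul_of_nonneg_right (e j) (pow_nonneg (zero_le_two.trans (h.two j)) M)⟩

theorem congr (h : Pl H m x f μ) (e : ∀ j, g j =ᶠ[𝓝 (x j)] f j) : Pl H m x g μ :=
  h.map fun _ a => a.congr e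

theorem congr' (h : Pl H m x f μ) (e : ∀ j y, g j y = f j y) : Pl H m x g μ :=
  h.map fun _ a => a.congr' e

theorem ix {I : Type} (h : Pl H m x f μ) (φ : I → J) :
    Pl (fun i => H (φ i)) m (fun i => x (φ i)) (fun i => f (φ i)) fun i => μ (φ i) :=
  ⟨fun _ => h.two _, fun _ => h.nn _, h.oj.imp fun _ a => a.ix φ⟩

theorem fd (h : Pl H (m + 1) x f μ) : Pl H m x (fun j => fderiv ℝ (f j)) μ := h.map fun _ a => a.fd

theorem zero (hH : ∀ j, 2 ≤ H j) (hμ : ∀ j, 0 ≤ μ j) (hs : ∀ j, ContDiffAt ℝ ∞ (f j) (x j))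
    (N : ℕ) (h : ∀ j, ‖f j (x j)‖ ≤ μ j * H j ^ N) : Pl H 0 x f μ :=
  of_jb hH hμ hs N fun j => .of_zero (h j)

theorem val (h : Pl H m x f μ) : ∃ N : ℕ, ∀ j, ‖f j (x j)‖ ≤ μ j * H j ^ N :=
  h.bd.imp fun _ a j => (a j).zero

theorem succ (h0 : Pl H 0 x f μ) (h : Pl H m x (fun j => fderiv ℝ (f j)) μ) :
    Pl H (m + 1) x f μ := h0.map2 h fun _ => Oj.succ

theorem add (h : Pl H m x f μ) (h' : Pl H m x g μ) : Pl H m x (fun j y => f j y + g j y) μ :=
  h.map2 h' fun _ => Oj.add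

theorem sub (h : Pl H m x f μ) (h' : Pl H m x g μ) : Pl H m x (fun j y => f j y - g j y) μ :=
  h.map2 h' fun _ => Oj.sub

theorem neg (h : Pl H m x f μ) : Pl H m x (fun j y => -f j y) μ := h.map fun _ => Oj.neg

theorem clm (L : V →L[ℝ] W) (h : Pl H m x f μ) : Pl H m x (fun j y => L (f j y)) μ :=
  h.map fun _ => Oj.clm L

theorem cst (hH : ∀ j, 2 ≤ H j) (v : V) : Pl H m x (fun _ _ => v) 1 := of hH (.cst v)

theorem sum {ι : Type} (s : Finset ι) {F : ι → J → E → V} (hH : ∀ j, 2 ≤ H j) (hμ : ∀ j, 0 ≤ μ j)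
    (h : ∀ i ∈ s, Pl H m x (F i) μ) : Pl H m x (fun j y => ∑ i ∈ s, F i j y) μ := by
  classical
  induction s using Finset.induction_on with
  | empty => exact of hH (.sum ∅ hμ (by simp))
  | insert a s ha ih =>
    exact ((h a (Finset.mem_insert_self _ _)).add
      (ih fun i hi => h i (Finset.mem_insert_of_mem hi))).congr' fun _ _ => Finset.sum_insert ha

theorem bil (L : V →L[ℝ] W →L[ℝ] U) {g : J → E → W} (h : Pl H m x f μ) (h' : Pl H m x g ν) :
    Pl H m x (fun j y => L (f j y) (g j y)) (μ * ν) :=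
  let ⟨N, a⟩ := h.oj
  let ⟨M, b⟩ := h'.oj
  ⟨h.two, fun j => mul_nonneg (h.nn j) (h'.nn j), N + M, (a.bil L b).mono le_rfl fun j =>
    le_of_eq (by simp only [Pi.mul_apply]; ring)⟩

theorem apl {A : J → E → V →L[ℝ] W} (h : Pl H m x A μ) (h' : Pl H m x f 1) :
    Pl H m x (fun j y => A j y (f j y)) μ := by simpa using h.bil (.id ℝ _) h'

theorem apr {A : J → E → V →L[ℝ] W} (h : Pl H m x A 1) (h' : Pl H m x f μ) :
    Pl H m x (fun j y => A j y (f j y)) μ := by simpa using h.bil (.id ℝ _) h'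

theorem cl {A : J → E → W →L[ℝ] U} {B : J → E → V →L[ℝ] W} (h : Pl H m x A μ)
    (h' : Pl H m x B 1) : Pl H m x (fun j y => (A j y).comp (B j y)) μ := by
  simpa using h.bil (compL ℝ V W U) h'

theorem smull {a : J → E → ℝ} (h : Pl H m x a μ) (h' : Pl H m x f 1) :
    Pl H m x (fun j y => a j y • f j y) μ := by
  simpa using h.bil (ContinuousLinearMap.lsmul ℝ ℝ) h'

theorem smulr {a : J → E → ℝ} (h : Pl H m x a 1) (h' : Pl H m x f μ) :
    Pl H m x (fun j y => a j y • f j y) μ := by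
  simpa using h.bil (ContinuousLinearMap.lsmul ℝ ℝ) h'

/-- Composition; only the derivative of the inner map has to be bounded. -/
theorem comp (hs : ∀ j, ContDiffAt ℝ ∞ (f j) (x j)) (m : ℕ) :
    ∀ {W : Type} [NormedAddCommGroup W] [NormedSpace ℝ W] {G : J → V → W},
      Pl H (m - 1) x (fun j => fderiv ℝ (f j)) 1 → Pl H m (fun j => f j (x j)) G μ →
      Pl H m x (fun j y => G j (f j y)) μ := by
  induction m with
  | zero =>
    intro W _ _ G _ hG
    exact hG.val.elim (zero hG.two hG.nn fun j => (hG.sm j).comp _ (hs j))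
  | succ m ih =>
    intro W _ _ G hf hG
    exact succ (hG.val.elim (zero hG.two hG.nn fun j => (hG.sm j).comp _ (hs j)))
      (((ih (hf.le (by omega)) hG.fd).cl hf).congr fun j => P354YI.fd_comp (hG.sm j) (hs j))

theorem inv [CompleteSpace V] {A : J → E → V →L[ℝ] W} (hi : ∀ j, (A j (x j)).IsInvertible)
    (N : ℕ) (hb : ∀ j, ‖(A j (x j)).inverse‖ ≤ H j ^ N) (h : Pl H m x A 1) :
    Pl H m x (fun j y => (A j y).inverse) 1 := by
  have h0 : Pl H 0 x (fun j y => (A j y).inverse) 1 := zero h.two h.nn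
    (fun j => P354YI.at_comp (hi j).contDiffAt_map_inverse (h.sm j)) N (by simpa using hb)
  induction m with
  | zero => exact h0
  | succ m ih =>
    have k := ih h.pred
    exact h0.succ ((((k.clm (compL ℝ W W V)).cl ((k.clm (compL ℝ W V W).flip).cl h.fd)).neg).congr
      fun j => P354YI.fd_inv (h.sm j) (hi j))

/-- The inverse of a function. -/
theorem rinv {a : J → E → ℝ} (N : ℕ) (hb : ∀ j, (H j ^ N)⁻¹ ≤ |a j (x j)|) (h : Pl H m x a 1) :
    Pl H m x (fun j y => (a j y)⁻¹) 1 := by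
  have p : ∀ j, 0 < H j ^ N := fun j => pow_pos (two_pos.trans_le (h.two j)) N
  have n : ∀ j, a j (x j) ≠ 0 := fun j => abs_pos.1 ((inv_pos.2 (p j)).trans_le (hb j))
  have h0 : Pl H 0 x (fun j y => (a j y)⁻¹) 1 := zero h.two h.nn (fun j => (h.sm j).inv (n j)) N
    fun j => by simpa using inv_le_of_inv_le₀ (p j) (hb j)
  induction m with
  | zero => exact h0
  | succ m ih =>
    have k := ih h.pred
    refine h0.succ ((k.smull (k.smull h.fd)).neg.congr fun j => ?_)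
    filter_upwards [P354YI.ev_dif (h.sm j), (h.sm j).continuousAt.eventually_ne (n j)] with y a1 a2
    rw [show fderiv ℝ (fun y => (a j y)⁻¹) y = _ from
      ((hasDerivAt_inv a2).comp_hasFDerivAt y a1.hasFDerivAt).fderiv, smul_smul, ← neg_smul, sq,
      mul_inv]

/-- A right inverse of a map: its derivative has polynomial jets. -/
theorem rev [CompleteSpace E] {φ : J → V → E} {y : J → V} (e : ∀ j, φ j (y j) = x j)
    (hf : ∀ j, ContDiffAt ℝ ∞ (f j) (x j)) (hs : ∀ j, ContDiffAt ℝ ∞ (φ j) (y j))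
    (r : ∀ j, ∀ᶠ z in 𝓝 (y j), f j (φ j z) = z) (hi : ∀ j, (fderiv ℝ (f j) (x j)).IsInvertible)
    (N : ℕ) (hb : ∀ j, ‖(fderiv ℝ (f j) (x j)).inverse‖ ≤ H j ^ N)
    (h : Pl H m x (fun j => fderiv ℝ (f j)) 1) : Pl H m y (fun j => fderiv ℝ (φ j)) 1 := by
  obtain rfl : x = fun j => φ j (y j) := funext fun j => (e j).symm
  have ev : ∀ j, fderiv ℝ (φ j) =ᶠ[𝓝 (y j)] fun z => (fderiv ℝ (f j) (φ j z)).inverse := fun j => by
    filter_upwards [(r j).eventually_nhds, P354YI.ev_dif (hs j), (hs j).continuousAt.eventually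
      ((P354YI.ev_dif (hf j)).and (P354YI.ev_inv (h.sm j).continuousAt (hi j)))] with z a1 a2 a3
    have := fderiv_fun_comp z a3.1 a2
    rw [EventuallyEq.fderiv_eq (f := id) a1, fderiv_id] at this
    ext v
    rw [eq_comm, a3.2.inverse_apply_eq]
    exact congrArg (· v) this
  have k := h.inv hi N hb
  induction m with
  | zero => exact (k.val.elim (zero (f := fun j z => (fderiv ℝ (f j) (φ j z)).inverse) k.two k.nn
      fun j => (k.sm j).comp _ (hs j))).congr ev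
  | succ m ih => exact (comp hs (m + 1) (ih h.pred k.pred) k).congr ev

section met
variable {x : J → R4} {g : J → Tw} {h : J → R4 → B2} {f : J → R4 → R4}

theorem tb (h : ∀ a b, Pl H m x (fun j y => g j y (bs a) (bs b)) μ) :
    Pl H m x (fun j => tb (g j)) μ :=
  (sum _ (h 0 0).two (h 0 0).nn fun a _ => sum _ (h 0 0).two (h 0 0).nn fun b _ =>
    (h a b).clm (P354YI.el ℝ a b)).congr' fun _ _ => P354YI.tb_eq _ _

theorem pb (hs : ∀ j, ContDiffAt ℝ ∞ (f j) (x j)) (hf : Pl H m x (fun j => fderiv ℝ (f j)) 1)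
    (hh : Pl H m (fun j => f j (x j)) h μ) : Pl H m x (fun j => P354RC.pb (h j) (f j)) μ :=
  ((((comp hs m (hf.le (by omega)) hh).cl hf).map fun _ => Oj.flip).cl hf).map fun _ => Oj.flip

theorem bd' (hh : Pl H m x h μ) (e : ∀ j, ∀ᶠ y in 𝓝 (x j), ∀ v w, g j y v w = h j y v w) :
    ∃ N : ℕ, ∀ j, Bd m (g j) (x j) (μ j * H j ^ N) := by
  obtain ⟨N, a⟩ := hh.oj
  obtain ⟨C, -, hC⟩ := a.bd' e
  obtain ⟨n, hn⟩ := pow_unbounded_of_one_lt C (one_lt_two (α := ℝ))
  refine ⟨N + n, fun j k hk v w => (hC j k hk v w).trans (mul_le_mul_of_nonneg_right ?_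
    (by positivity))⟩
  rw [pow_add, mul_comm C, ← mul_assoc]
  exact mul_le_mul_of_nonneg_left (hn.le.trans (pow_le_pow_left₀ zero_le_two (hh.two j) n))
    (a.nn j)

end met

end Pl

end Vale.Agent.P354DT
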