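import Vale.Agent.P354KX.Defs
import Vale.Agent.P354DT.Pl
import Vale.Agent.P354LF.Cv
import Vale.Agent.P354YO.OutA1

/-!
CLF: the kicked metric is close to Kerr in the near zone.
-/

set_option maxSynthPendingDepth 3

open scoped ContDiff
open Set Filter Topology

noncomputable section

namespace Vale.Agent.P354DT

open Vale.Agent.P354n (R4)
open Vale.Agent.P354C (met eta th)
open Vale.Agent.P354I (rm rp)
open Vale.Agent.P354RC (surj_of_inj at_df)
open Vale.Agent.P354XA (linL rd_lin met_bil pos_of_ker)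
open Vale.Agent.P354XD (tb)
open Vale.Agent.P354XE hiding ci nv
open Vale.Agent.P354XU (Jt)
open Vale.Agent.P354YI (Oj Jb ev_dif at_fd bd_congr bd_le bd_add jb_const)
open Vale.Agent.P354YR (XI DI kU kV isCh gin_lor)
open Vale.Agent.P354YJ (cone pb_bil bd0 end_pt box_sq)
open Vale.Agent.P354YM
open Vale.Agent.P354LF (Bl nV nv_ch ch_cd nr)
open Vale.Agent.P354EN (Dm box_open)
open Vale.Agent.P354KX

theorem loc_inv {f : R4 → R4} {p : R4} (k : ContDiffAt ℝ ∞ f p)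
    (i : Function.Injective (fderiv ℝ f p)) : (fderiv ℝ f p).IsInvertible ∧
    ∃ φ, φ (f p) = p ∧ ContDiffAt ℝ ∞ φ (f p) ∧ ∀ᶠ z in 𝓝 (f p), f (φ z) = z := by
  let A : R4 ≃L[ℝ] R4 := ContinuousLinearEquiv.ofBijective (fderiv ℝ f p)
    (LinearMap.ker_eq_bot.2 i) (LinearMap.range_eq_top.2 (surj_of_inj i))
  have d : HasFDerivAt f (A : R4 →L[ℝ] R4) p := (at_df k).hasFDerivAt
  exact ⟨⟨A, rfl⟩, _, k.localInverse_apply_image d (by simp), k.to_localInverse d (by simp),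
    (k.hasStrictFDerivAt' d (by simp)).eventually_right_inverse⟩

/-- The hypotheses of iv_bd. -/
structure Iv (k : ℕ) (G E : ℝ) (f : R4 → R4) (p : R4) (h h' : Tw) : Prop where
  two : 2 ≤ G
  sm : ContDiffAt ℝ ∞ f p
  jt : Jt (k + 1) f p G
  low : ∀ v, ‖v‖ ≤ G * ‖fderiv ℝ f p v‖
  bl : Bl h p
  bd : Bd k h p E
  eq : pb f h' =ᶠ[𝓝 p] h

/-- The push forward by a map with polynomial bounds. -/
theorem iv_bd (k : ℕ) : ∃ N : ℕ, ∀ G E f p h h', Iv k G E f p h h' →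
    Bd k h' (f p) (E * G ^ N) := by
  let J := {i : (ℝ × ℝ) × ((R4 → R4) × R4) × Tw × Tw //
    Iv k i.1.1 i.1.2 i.2.1.1 i.2.1.2 i.2.2.1 i.2.2.2}
  have i := fun j : J => loc_inv j.2.sm ((injective_iff_map_eq_zero _).2 fun v hv =>
    norm_le_zero_iff.1 (by simpa [hv] using j.2.low v))
  choose φ e s r using fun j => (i j).2
  have a : Pl (fun j : J => j.1.1.1) k (fun j => j.1.2.1.1 j.1.2.1.2) (fun j => fderiv ℝ (φ j)) 1 :=
    Pl.rev e (fun j => j.2.sm) s r (fun j => (i j).1) 1 (fun j => by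
      refine ContinuousLinearMap.opNorm_le_bound _ (by linarith [j.2.two]) fun w => ?_
      simpa [(i j).1.self_apply_inverse] using j.2.low ((fderiv ℝ j.1.2.1.1 j.1.2.1.2).inverse w))
      (.of_jb (fun j => j.2.two) (fun _ => zero_le_one) (fun j => at_fd j.2.sm) 1
        fun j => by simpa using Jb.fd j.2.jt)
  have b : Pl (fun j : J => j.1.1.1) k (fun j => φ j (j.1.2.1.1 j.1.2.1.2))
      (fun j => tb j.1.2.2.1) fun j => j.1.1.2 :=
    .of a.two (Oj.tb (fun j => (e j).symm ▸ j.2.bl.sm) fun j => (e j).symm ▸ j.2.bd)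
  obtain ⟨N, hN⟩ := (Pl.pb s a b).bd' (g := fun j : J => j.1.2.2.2) fun j => by
    have c : Tendsto (φ j) (𝓝 _) (𝓝 j.1.2.1.2) := (e j) ▸ (s j).continuousAt.tendsto
    filter_upwards [(r j).eventually_nhds, ev_dif (s j),
      c.eventually ((ev_dif j.2.sm).and (j.2.bl.ev.and j.2.eq))] with z a1 a2 a3 v w
    have := fderiv_fun_comp z a3.1 a2
    rw [EventuallyEq.fderiv_eq (f := id) a1, fderiv_id] at this
    have k : ∀ u, fderiv ℝ j.1.2.1.1 (φ j z) (fderiv ℝ (φ j) z u) = u := fun u =>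
      (congrArg (· u) this).symm
    rw [P354RC.pb_ap, ← a3.2.1, ← a3.2.2, pb, k, k, a1.self_of_nhds]
  exact ⟨N, fun G E f p h h' H => hN ⟨((G, E), (f, p), h, h'), H⟩⟩

/-- Late points of one end do not lie in the other end. -/
theorem far_end {M a r1 θ : ℝ} (h : |a| < M) (h1 : rm M a < r1) (hθ : 0 < θ) :
    ∃ t1, ∀ σ b p q, p ∈ En M a r1 θ → q ∈ DI M a → ch M a σ p = ch M a b q → t1 ≤ q.1 →
      σ = b ∧ p = q := by
  have m0 := mf_pos h1
  have k0 := ka_pos h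
  refine ⟨(rp M a - r1) / (mf M a r1 ^ 2 * θ) / ka M a, fun σ b p q hp hq e ht => ?_⟩
  have mp : p ∈ DI M a := h1.trans hp.1
  by_cases s : σ = b
  · subst s
    exact ⟨rfl, by rw [← (isCh h σ).left p mp, e, (isCh h σ).left q hq]⟩
  have r : rd q = rd p := by rw [← (isCh h b).rad q hq, ← e, (isCh h σ).rad p mp]
  have e1 : nV M a σ (ch M a σ p) * nV M a b (ch M a σ p) = rp M a - rd p := by
    rw [← (isCh h σ).rad p mp, P354YR.kr_eq]
    cases σ <;> cases b <;> simp [nV, mul_comm] at s ⊢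
  rw [nv_ch h mp, e, nv_ch h hq, r] at e1
  have e2 := (div_lt_iff₀' (by positivity)).1 (((div_le_iff₀' k0).1 ht).trans_lt
    ((lt_add_one _).trans_le (Real.add_one_le_exp _)))
  have e3 := P354LF.mf_le h h1 hp.1.le
  have e4 := mul_le_mul (mul_le_mul e3 hp.2.1 hθ.le (m0.le.trans e3))
    (mul_le_mul_of_nonneg_right e3 (Real.exp_pos (ka M a * q.1)).le) (by positivity)
    (mul_nonneg (m0.le.trans e3) (Real.exp_pos _).le)
  nlinarith [hp.1]

theorem clf : CLF := by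
  intro k
  obtain ⟨N1, h1⟩ := iv_bd k
  obtain ⟨C, C0, hC⟩ := P354LF.bd_pb k 3
  refine ⟨k + 1, fun M a r1 r0 r2 s δ B => ⟨N1 + 2 * ⌈s⌉₊ + 1, ?_⟩⟩
  have h := B.lt
  have q0 := (rm_nonneg h).trans_lt B.r1.1
  have M0 := P354YR.M_pos h
  have p0 := P354YR.rp_pos h
  obtain ⟨ε1, e1, H1⟩ := end_pt h q0
  refine ((P354YJ.cls M a r1 r0 r2 s δ B).and (evt_basic (θ0 := 1 / 4)
    (e := min (ε1 / 2) (1 / 2)) (by norm_num) (by positivity) (5 * M) k)).mono
    fun θ R ε N ⟨hc, hθ, hR, hN, hε⟩ => ?_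
  dsimp only at hθ hR hN hε
  obtain ⟨t1, ht⟩ := far_end h B.r1.1 hθ.1
  have ε0 : 0 < ε := hε.1
  have l1 : ε ≤ ε1 / 2 := hε.2.trans (min_le_left _ _)
  have l2 : ε ≤ 1 / 2 := hε.2.trans (min_le_right _ _)
  refine ⟨max (4 * (|t1| + 5 * M + 2 * rp M a + 1)) (max 3 ((C + 1) / ε)),
    fun d T J b σ0 T' δ0 δ3 R' w G E U U' Ψ Ps j W g' X' K I a1 a2 a3 sb sq l' fu P' hb hE hK => ?_⟩
  obtain ⟨b1, b2⟩ := max_le_iff.1 a1
  obtain ⟨b2, b3⟩ := max_le_iff.1 (b2.trans a2)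
  have b4 := (div_le_iff₀ ε0).1 b3
  have c0 := hc d T I
  have ends : ∀ σ, IsEnd M a r1 θ R s δ ε N _ _ _ _ _ := I.ends
  have ori := I.ori
  dsimp only at sq ends ori
  have sub : Bk T' δ3 R' w ⊆ Dm T' δ0 R' w := fun p m =>
    ⟨⟨by linarith [m.1.1], by linarith [m.1.2]⟩,
      ⟨by linarith [m.2.1.1, sb.pos.2.2], by linarith [m.2.1.2, sb.pos.2.2]⟩, by linarith [m.2.2]⟩
  have fd : ∀ x ∈ Dm T' δ0 R' w, ∀ v,
      fderiv ℝ Ψ x v = fderiv ℝ (ch M a b) (Ps x) (fderiv ℝ Ps x v) := fun x m v => by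
    rw [EventuallyEq.fderiv_eq (f := fun y => ch M a b (Ps y)) (((box_open ..).eventually_mem m).mono
      fun y hy => (sq.eq y hy).1), fderiv_fun_comp x (at_df (ch_cd h (sq.eq x m).2.1))
      (at_df (sq.eq x m).2.2)]
    rfl
  have key : ∀ p ∈ Bk T' δ3 R' w, 0 ≤ p.1 → rd (Ps p) ≤ 5 * M → Bl (pb (ch M a b) g') (Ps p) ∧
      Bl (pb (ch M a b) T.g) (Ps p) ∧ ∃ c, Bd k (pb (ch M a b) g' - pb (ch M a b) T.g) (Ps p) c ∧
        ∀ t : ℝ, |t| ≤ 2 * |(Ps p).1| → (C + 1) * c ≤ ε * (1 + |t|) ^ (-s) := fun p m m0 r => by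
    obtain ⟨e, mI, sm⟩ := sq.eq p (sub m)
    obtain ⟨jt, low⟩ := (sq.pt p (sub m) m0).2.2.2 (by linarith)
    have o := box_open (-δ3) (T' + δ3) (R' - 2 * w) (R' + 5 / 2 * w) (9 / 2)
    have bd := (hb p m).2 m0
    refine ⟨.pb (ch_cd h mI) (.of l'.isOpen l'.met (e ▸ P'.maps m)),
      .pb (ch_cd h mI) (.of I.lor.isOpen I.lor.met (e ▸ sb.pull.maps (sub m))), _,
      h1 G E Ps p _ _ ⟨by linarith, sm, jt, low, (Bl.of o (fu.vac o).2.2 m).sub
        (.of (box_open ..) (sb.fu.vac (box_open ..)).2.2 (sub m)), bd,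
        (o.eventually_mem m).mono fun x hx => ?_⟩, fun t ht => ?_⟩
    · funext v u
      simp only [pb, Pi.sub_apply, P'.eq x hx, sb.pull.eq x (sub hx), fd x (sub hx),
        (sq.eq x (sub hx)).1]
    · have G0 : 0 < G := by linarith
      have t1 : 1 + |t| ≤ G ^ 2 := by
        have : |(Ps p).1| ≤ G := (norm_fst_le (Ps p)).trans (Jb.zero jt)
        nlinarith
      have t2 : (1 + |t|) ^ s ≤ G ^ (2 * ⌈s⌉₊) := by
        rw [pow_mul, ← Real.rpow_natCast]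
        exact (Real.rpow_le_rpow_of_exponent_le (by linarith [abs_nonneg t]) (Nat.le_ceil s)).trans
          (Real.rpow_le_rpow (by positivity) t1 (by positivity))
      have t3 := mul_nonneg (P354LF.bd_nn bd) (pow_pos G0 N1).le
      rw [Real.rpow_neg (by positivity), ← div_eq_mul_inv, le_div_iff₀ (by positivity)]
      rw [pow_succ, pow_add, ← mul_assoc, ← mul_assoc] at hE
      have t4 := mul_le_mul b4 (mul_le_mul_of_nonneg_left t2 t3) (by positivity) (by positivity)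
      nlinarith
  have late : ∀ p ∈ Bk T' δ3 R' w, 0 ≤ p.1 → rd (Ps p) ≤ 5 * M + 2 * rp M a + 1 / 2 →
      |t1| + 1 / 2 ≤ (Ps p).1 := fun p m m0 r => by linarith [(sq.pt p (sub m) m0).2.2.1]
  have same : ∀ σ x, x ∈ En M a r1 θ → rd x ≤ 5 * M → ∀ p ∈ Bk T' δ3 R' w, 0 ≤ p.1 →
      ch M a σ x = Ψ p → σ = b ∧ x = Ps p := fun σ x m r p m1 m0 e => by
    obtain ⟨e2, mI, -⟩ := sq.eq p (sub m1)
    have : rd (Ps p) = rd x := by
      rw [← (isCh h b).rad _ mI, ← e2, ← e, (isCh h σ).rad x (B.r1.1.trans m.1)]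
    exact ht σ b x _ m mI (e.trans e2) (by linarith [late p m1 m0 (by linarith), le_abs_self t1])
  refine ⟨c0.par, fun σ x m r mK => ?_, fun x mK m hx => ?_, fun σ x m r mK => ?_⟩ <;>
    dsimp only [Pm.n] at m mK ⊢
  · have mI : x ∈ DI M a := B.r1.1.trans m.1
    rcases hK _ mK with e | ⟨p, m1, m0, e⟩
    · obtain ⟨n1, n2⟩ := c0.near σ x m r trivial
      refine ⟨bd_congr (bd_le n1 hN le_rfl) (((ch_cd h mI).continuousAt.eventually e).mono
        fun y hy => ?_), by rwa [e.self_of_nhds.1, e.self_of_nhds.2]⟩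
      funext v u
      simp only [pb, Pi.sub_apply, hy.1]
    obtain ⟨rfl, rfl⟩ := same σ x m r p m1 m0 e
    obtain ⟨k1, k2, c, k3, k4⟩ := key p m1 m0 r
    obtain ⟨n1, n2, -⟩ := (ends σ).near _ m (r.trans (show 5 * M ≤ _ by linarith))
    have k5 : c ≤ ε := by
      have := k4 0 (by simp)
      simp only [abs_zero, add_zero, Real.one_rpow, mul_one] at this
      nlinarith [P354LF.bd_nn k3]
    have n3 := bd_le (P354LF.bd_tri (k1.sub k2) (k2.sub (.of (gin_lor h).isOpen (gin_lor h).met mI))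
      k3 (bd_le n2 hN le_rfl)) le_rfl (show c + ε ≤ 2 * ε by linarith)
    refine ⟨n3, ?_⟩
    have mD := sb.pull.maps (sub m1)
    have mW := P'.maps m1
    have f0 := sb.fut p (sub m1)
    have f1 := (hb p m1).1
    have z : ∀ V, met V p nv nv = 0 := fun V => by simp [met, eta, th, nv]
    have z0 := (sb.pull.eq p (sub m1) nv nv).symm.trans (z U)
    have z1 := (P'.eq p m1 nv nv).symm.trans (z U')
    rw [fd p (sub m1), ← e] at f0 f1 z0 z1
    rw [← e] at mD mW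
    obtain ⟨Z, hZ⟩ := surj_of_inj ((isCh h σ).pull.inj _ mI) (X' (ch M a σ (Ps p)))
    have o := ori σ _ m
    obtain ⟨i1, -⟩ := H1 ε (by linarith) _ _ m.1.le (bd0 n2)
    obtain ⟨j1, j2, j3, -⟩ := H1 (2 * ε) (by linarith) _ _ m.1.le (bd0 n3)
    have u1 := pos_of_ker (pb_bil (met_bil I.lor.met mD)) (fun _ _ => I.lor.met.symm _ mD _ _)
      (ContinuousLinearMap.fst ℝ ℝ _) i1 n1 (by rw [pb, o]; exact (I.lor.tl _ mD).le) z0.le
      (by rw [pb, o]; exact f0)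
    have tl : pb (ch M a σ) g' (Ps p) Z Z < 0 := by rw [pb, hZ]; exact l'.tl _ mW
    have u2 := pos_of_ker (pb_bil (met_bil l'.met mW)) (fun _ _ => l'.met.symm _ mW _ _)
      (ContinuousLinearMap.fst ℝ ℝ _) j1 u1 z1.le tl.le
      (by rw [pb, hZ, l'.met.symm _ mW]; exact f1)
    rw [← hZ]
    exact cone (pb_bil (met_bil l'.met mW)) (fun _ _ => l'.met.symm _ mW _ _)
      (ContinuousLinearMap.fst ℝ ℝ _) j1 j3 u2 j2 tl
  · rcases hK _ mK with e | ⟨p, m1, m0, rfl⟩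
    · obtain ⟨n1, n2⟩ := c0.mid x trivial m hx
      refine ⟨bd_congr (bd_le n1 hN le_rfl) (e.mono fun y hy => ?_),
        by rwa [e.self_of_nhds.1, e.self_of_nhds.2]⟩
      simp only [Pi.sub_apply, hy.1]
    dsimp only [Pm.n] at hx
    obtain ⟨e, mI, -⟩ := sq.eq p (sub m1)
    have k1 := box_sq h B.r1.1 m hx
    have k2 : θ ^ 2 ≤ (1 / 4) ^ 2 := pow_le_pow_left₀ hθ.1.le hθ.2.le 2
    have k3 := mul_le_mul_of_nonneg_right k2 (show 0 ≤ 1 + kr M a (Ψ p) by linarith [m.2.2])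
    have k4 : kr M a (Ψ p) = rp M a + kx M a (Ψ p) ^ 2 - (Ψ p).1 ^ 2 := rfl
    have k5 : kr M a (Ψ p) = rd (Ps p) := by rw [e, (isCh h b).rad _ mI]
    have k6 := late p m1 m0 (by nlinarith [sq_nonneg (Ψ p).1])
    have k7 : nV M a b (Ψ p) ≤ (Ψ p).1 + |kx M a (Ψ p)| := by
      cases b
      exacts [add_le_add le_rfl (neg_le_abs _), add_le_add le_rfl (le_abs_self _)]
    have k8 := k7.trans hx
    rw [k5, e, nv_ch h mI] at k8
    have k9 := Real.one_le_exp (mul_nonneg (ka_pos h).le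
      (show 0 ≤ (Ps p).1 by linarith [abs_nonneg t1]))
    exact absurd k8 (by nlinarith [mf_pos mI, hθ.2])
  · have nq := c0.par σ
    have mI : (T.q σ).lin x ∈ DI M a := B.r1.1.trans m.1
    have sl := (linL (T.q σ)).contDiff.contDiffAt (n := ∞) (x := x)
    rcases hK _ mK with e | ⟨p, m1, m0, e⟩
    · refine bd_congr (bd_le (c0.conv σ x m r trivial) hN le_rfl)
        ((((ch_cd h mI).comp x sl).continuousAt.eventually e).mono fun y hy => ?_)
      funext v u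
      exact congrArg (fun B : R4 → R4 → ℝ => B (fderiv ℝ _ y v) (fderiv ℝ _ y u) - _) hy.1
    obtain ⟨rfl, e2⟩ := same σ _ m ((rd_lin nq.2.2.2.1 x).trans_le r) p m1 m0 e
    obtain ⟨k1, k2, c, k3, k4⟩ := key p m1 m0 (e2 ▸ (rd_lin nq.2.2.2.1 x).trans_le r)
    rw [← e2] at k1 k2 k3 k4
    obtain ⟨n1, -, n2, -⟩ := nr nq l2
    have k5 := k4 x.1 (by
      change _ ≤ 2 * |(T.q σ).l * x.1|
      rw [abs_mul, abs_of_pos (show 0 < (T.q σ).l by linarith)]
      nlinarith [abs_nonneg x.1])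
    have k6 := hC (T.q σ).lin x _ c sl (((jb_const k (linL (T.q σ)) x).mono le_rfl n2).congr
      (.of_forall fun _ => (linL (T.q σ)).fderiv)) (k1.sub k2) k3
    have x0 : xs x ≠ 0 := norm_pos_iff.1 (q0.trans (m.1.trans_eq (rd_lin nq.2.2.2.1 x)))
    have k7 := bd_add k6 (bd_le ((ends σ).conv x m (r.trans hR)) hN le_rfl)
      (Bl.pb sl (k1.sub k2)).sm fun v u => ((Bl.pb sl k2).sm v u).sub
        (P354YR.s_gin contDiffAt_id x0 contDiffAt_const contDiffAt_const v u)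
    refine bd_congr (bd_le k7 le_rfl ?_) ((P354YO.pb_comp (g := g') sl (ch_cd (σ := σ) h mI)).mono
      fun y hy => ?_)
    · nlinarith [P354LF.bd_nn k3]
    · funext v u
      exact (congrArg (fun B : R4 → R4 → ℝ => B v u - _) hy).trans (sub_add_sub_cancel _ _ _).symm

end Vale.Agent.P354DT
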