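import Vale.Agent.P354DT.Gen
import Vale.Agent.P354YR.Cau
import Vale.Agent.P354YO.Kru

/-!
Stability of compact parts of the future of the slice T = 0 of Kerr, from stability for a finite
time.
-/

set_option maxSynthPendingDepth 3

open scoped ContDiff
open Set Filter Topology

noncomputable section

namespace Vale.Agent.P354DT

open Vale.Agent.P354n (R4)
open Vale.Agent.P354I (X Dat rm rp dT)
open Vale.Agent.P354R (Met Pull)
open Vale.Agent.P354RC (at_df)
open Vale.Agent.P354XS (BA ds)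
open Vale.Agent.P354XE (Tw pt xs eT Bd pb kr kx mf)
open Vale.Agent.P354XV (Lv In0 Spl)
open Vale.Agent.P354YI (FTS CORE)
open Vale.Agent.P354YR

variable {M a : ℝ} {p q w : R4}

/-- A smooth increasing function which is zero on the left and the identity on the right. -/
def Gf (s : ℝ) : ℝ := s * Real.smoothTransition s

theorem Gf_cd : ContDiff ℝ ∞ Gf := contDiff_id.mul Real.smoothTransition.contDiff

theorem Gf_nn (s : ℝ) : 0 ≤ Gf s := by
  rcases le_total s 0 with h | h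
  · rw [Gf, Real.smoothTransition.zero_of_nonpos h, mul_zero]
  · exact mul_nonneg h (Real.smoothTransition.nonneg s)

theorem Gf_ge (s : ℝ) : s ≤ Gf s + 1 := by
  rcases le_total s 1 with h | h
  · linarith [Gf_nn s]
  · rw [Gf, Real.smoothTransition.one_of_one_le h]; linarith

theorem Gf_fd {f : R4 → ℝ} (s : ContDiffAt ℝ ∞ f p) (h : 0 < f p → 0 ≤ fderiv ℝ f p w) :
    0 ≤ fderiv ℝ (fun x => Gf (f x)) p w := by
  have d := ((Real.smoothTransition.contDiff (n := 1)).differentiable one_ne_zero (f p)).hasDerivAt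
  have e := ((hasDerivAt_id (f p)).mul d).comp_hasFDerivAt p (at_df s).hasFDerivAt
  rw [show fderiv ℝ (fun x => Gf (f x)) p = _ from e.fderiv, smul_apply, smul_eq_mul]
  rcases lt_or_ge 0 (f p) with k | k
  · exact mul_nonneg (add_nonneg (mul_nonneg zero_le_one (Real.smoothTransition.nonneg _))
      (mul_nonneg k.le Real.smoothTransition.monotone.deriv_nonneg)) (h k)
  · have z : deriv Real.smoothTransition (f p) = 0 := IsLocalMin.deriv_eq_zero
      (.of_forall fun x => by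
        rw [Real.smoothTransition.zero_of_nonpos k]; exact Real.smoothTransition.nonneg x)
    rw [z, Real.smoothTransition.zero_of_nonpos k]
    simp

/-- A function which is large near the inner horizon, the lid function, and the chart. -/
def qk (M a : ℝ) (p : R4) : ℝ := (kr M a p - rm M a)⁻¹ - (rp M a - rm M a)⁻¹
def Ld (M a : ℝ) (p : R4) : ℝ := Gf (eV M a p) + Gf (eU M a p) + Gf (qk M a p) + tau0 M a p
def Th (M a : ℝ) (p : R4) : R4 := (tau0 M a p, p.2)

theorem s_qk (hp : p ∈ DK M a) : ContDiffAt ℝ ∞ (qk M a) p :=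
  (((s_kr contDiffAt_id hp.1).sub contDiffAt_const).inv (sub_pos.2 hp.2).ne').sub contDiffAt_const

theorem s_tau (hp : p ∈ DK M a) : ContDiffAt ℝ ∞ (tau0 M a) p :=
  tau0_eq ▸ (s_eV hp).add (s_eU hp)

theorem s_Ld (hp : p ∈ DK M a) : ContDiffAt ℝ ∞ (Ld M a) p :=
  (((Gf_cd.contDiffAt.comp p (s_eV hp)).add (Gf_cd.contDiffAt.comp p (s_eU hp))).add
    (Gf_cd.contDiffAt.comp p (s_qk hp))).add (s_tau hp)

theorem s_Th (hp : p ∈ DK M a) : ContDiffAt ℝ ∞ (Th M a) p := (s_tau hp).prodMk contDiffAt_snd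

theorem fd_Th (hp : p ∈ DK M a) (w : R4) :
    fderiv ℝ (Th M a) p w = (fderiv ℝ (tau0 M a) p w, w.2) := by
  rw [show fderiv ℝ (Th M a) p = _ from
    ((at_df (s_tau hp)).hasFDerivAt.prodMk hasFDerivAt_snd).fderiv]
  rfl

theorem fd_qk (hp : p ∈ DK M a) (h : fderiv ℝ (kr M a) p w ≤ 0) : 0 ≤ fderiv ℝ (qk M a) p w := by
  have e := ((hasDerivAt_inv (sub_pos.2 hp.2).ne').comp_hasFDerivAt p
    ((at_df (s_kr contDiffAt_id hp.1)).hasFDerivAt.sub_const (rm M a))).sub_const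
      (rp M a - rm M a)⁻¹
  rw [show fderiv ℝ (qk M a) p = _ from e.fderiv, smul_apply, smul_eq_mul]
  exact mul_nonneg_of_nonpos_of_nonpos (neg_nonpos.2 (by positivity)) h

theorem fd_Ld (hp : p ∈ DK M a) (h1 : 0 < eV M a p → 0 ≤ fderiv ℝ (eV M a) p w)
    (h2 : 0 < eU M a p → 0 ≤ fderiv ℝ (eU M a) p w)
    (h3 : 0 < qk M a p → fderiv ℝ (kr M a) p w ≤ 0) (h4 : 0 < fderiv ℝ (tau0 M a) p w) :
    0 < fderiv ℝ (Ld M a) p w := by
  have a1 := at_df (Gf_cd.contDiffAt.comp p (s_eV hp))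
  have a2 := at_df (Gf_cd.contDiffAt.comp p (s_eU hp))
  have a3 := at_df (Gf_cd.contDiffAt.comp p (s_qk hp))
  rw [show fderiv ℝ (Ld M a) p = _ from (((a1.hasFDerivAt.add a2.hasFDerivAt).add
    a3.hasFDerivAt).add (at_df (s_tau hp)).hasFDerivAt).fderiv]
  exact add_pos_of_nonneg_of_pos (add_nonneg (add_nonneg (Gf_fd (s_eV hp) h1) (Gf_fd (s_eU hp) h2))
    (Gf_fd (s_qk hp) fun k => fd_qk hp (h3 k))) h4

theorem d_eT (p : R4) : dU M a p eT = 1 ∧ dV M a p eT = 1 := by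
  have : xs eT = 0 := by ext i; fin_cases i <;> rfl
  simp [dU, dV, dx, dT, this, show eT.1 = 1 from rfl]

theorem kr_eT (hp : p ∈ DK M a) : fderiv ℝ (kr M a) p eT = -(2 * p.1) := by
  rw [fd_kr hp.1, (d_eT p).1, (d_eT p).2, kU, kV]; ring

theorem Th_pt (y : X) : Th M a (pt 0 y) = pt 0 y := by simp [Th, tau0, pt]

theorem tau_nn (hp : p ∈ DK M a) : 0 ≤ tau0 M a p ↔ 0 ≤ p.1 := by
  rw [tau0, le_div_iff₀ (mf_pos hp.2), zero_mul, mul_nonneg_iff_of_pos_left two_pos]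

theorem cpt_pre {E F : Type} [TopologicalSpace E] [T2Space E] [TopologicalSpace F] {K : Set E}
    {f : E → F} {C : Set F} (hK : IsCompact K) (hf : ContinuousOn f K) (hC : IsClosed C) :
    IsCompact (K ∩ f ⁻¹' C) :=
  hK.of_isClosed_subset (hf.preimage_isClosed_of_isClosed hK.isClosed hC) inter_subset_left

section
variable (h : |a| < M)
include h

theorem al_nn : 0 ≤ rm M a / (2 * rp M a) := div_nonneg (rm_nn h) (by have := rp_pos h; positivity)

theorem mf_eT (hp : p ∈ DK M a) {f : R4 → ℝ} (s : ContDiffAt ℝ ∞ f p) (h1 : 0 < fderiv ℝ f p eT)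
    (h2 : 0 ≤ f p * p.1) : 0 < fderiv ℝ (fun p => f p / mf M a (kr M a p)) p eT := by
  rw [fd_mf hp s, kr_eT hp]
  refine div_pos ?_ (mf_pos hp.2)
  have := mul_nonneg h2 (div_nonneg (al_nn h) (sub_pos.2 hp.2).le)
  linarith

theorem tau_eT (hp : p ∈ DK M a) : 0 < fderiv ℝ (tau0 M a) p eT := by
  refine mf_eT h hp (f := fun p => 2 * p.1) (by fun_prop) ?_ (by nlinarith [sq_nonneg p.1])
  rw [show fderiv ℝ (fun p : R4 => 2 * p.1) p = _ from (hasFDerivAt_fst.const_mul 2).fderiv]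
  simp [eT]

theorem Ld_eT (hp : p ∈ DK M a) (h0 : 0 ≤ p.1) : 0 < fderiv ℝ (Ld M a) p eT :=
  fd_Ld hp (fun k => (mf_eT h hp (f := kV M a) (s_kV contDiffAt_id hp.1) (by
      rw [fd_kV hp.1, (d_eT p).2]; exact one_pos)
      (mul_nonneg ((div_pos_iff_of_pos_right (mf_pos hp.2)).1 k).le h0)).le)
    (fun k => (mf_eT h hp (f := kU M a) (s_kU contDiffAt_id hp.1) (by
      rw [fd_kU hp.1, (d_eT p).1]; exact one_pos)
      (mul_nonneg ((div_pos_iff_of_pos_right (mf_pos hp.2)).1 k).le h0)).le)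
    (fun _ => by rw [kr_eT hp]; linarith) (tau_eT h hp)

theorem Ld_cau (hp : p ∈ DK M a) (h0 : 0 ≤ p.1) (h1 : gK M a p w w ≤ 0)
    (h2 : 0 < fderiv ℝ (tau0 M a) p w) : 0 < fderiv ℝ (Ld M a) p w := by
  have m := (gK_lor h).met
  have f : gK M a p w (XK M a p) ≤ 0 := le_of_not_gt fun k => by
    have e : ∀ u, gK M a p (-w) u = -gK M a p w u := fun u => by
      rw [m.symm p hp, (m.lin p hp u).map_neg, m.symm p hp]
    have := eV_nn h hp (w := -w) (by rw [e, (m.lin p hp w).map_neg, neg_neg]; exact h1)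
      (by rw [e]; linarith)
    rw [tau0_eq, fderiv_fun_add (at_df (s_eV hp)) (at_df (s_eU hp)), add_apply] at h2
    simp only [map_neg] at this
    linarith [this.1, this.2]
  refine fd_Ld hp (fun _ => (eV_nn h hp h1 f).1) (fun _ => (eV_nn h hp h1 f).2) (fun k => ?_) h2
  obtain ⟨l0, n0, -⟩ := fut h hp h1 f
  have r : kr M a p < rp M a := by
    have := (inv_lt_inv₀ (sub_pos.2 (rm_lt h)) (sub_pos.2 hp.2)).1 (sub_pos.1 k)
    linarith
  have uv : 0 < kU M a p * kV M a p := by rw [kr_eq] at r; linarith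
  have s : 0 ≤ kU M a p + kV M a p := by rw [kU, kV]; linarith
  have U0 : 0 ≤ kU M a p := by nlinarith [sq_nonneg (kU M a p)]
  have V0 : 0 ≤ kV M a p := by nlinarith [sq_nonneg (kV M a p)]
  have := cS_pos h hp
  rw [fd_kr' h hp, neg_div, neg_nonpos]
  positivity

theorem mf_mono {r s : ℝ} (h1 : rm M a < r) (h2 : r ≤ s) : mf M a r ≤ mf M a s :=
  Real.rpow_le_rpow (sub_pos.2 h1).le (by linarith) (al_nn h)

theorem Th_inj : InjOn (Th M a) (DK M a) := by
  have key : ∀ p ∈ DK M a, ∀ q ∈ DK M a, Th M a p = Th M a q → |q.1| ≤ |p.1| := by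
    intro p hp q hq e
    refine le_of_not_gt fun k => ?_
    have e2 : p.2 = q.2 := (Prod.ext_iff.1 e).2
    have e1 : tau0 M a p = tau0 M a q := (Prod.ext_iff.1 e).1
    have x : kx M a p = kx M a q := by simp only [kx, P354XE.rd, xs, e2]
    have m := mf_mono h hq.2 (s := kr M a p) (by
      rw [kr, kr, x]; linarith [sq_lt_sq.2 k])
    have e3 := congrArg abs e1
    have p0 := mf_pos hp.2
    have q0 := mf_pos hq.2
    rw [tau0, tau0, abs_div, abs_div, abs_of_pos p0, abs_of_pos q0, abs_mul, abs_mul, abs_two,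
      div_eq_div_iff p0.ne' q0.ne'] at e3
    nlinarith [abs_nonneg p.1]
  intro p hp q hq e
  have e2 : p.2 = q.2 := (Prod.ext_iff.1 e).2
  have e1 : tau0 M a p = tau0 M a q := (Prod.ext_iff.1 e).1
  have x : kx M a p = kx M a q := by simp only [kx, P354XE.rd, xs, e2]
  have r : kr M a p = kr M a q := by
    rw [kr, kr, x, sq_eq_sq_iff_abs_eq_abs p.1 q.1 |>.2
      (le_antisymm (key q hq p hp e.symm) (key p hp q hq e))]
  rw [tau0, tau0, r, div_left_inj' (mf_pos hq.2).ne'] at e1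
  exact Prod.ext (by linarith) e2

theorem Th_fd (hp : p ∈ DK M a) : Function.Injective (fderiv ℝ (Th M a) p) :=
  (injective_iff_map_eq_zero _).2 fun v hv => by
    rw [fd_Th hp, Prod.mk_eq_zero] at hv
    have e : v = v.1 • eT := Prod.ext (by simp [eT]) (by simp [eT, hv.2])
    have k := hv.1
    rw [e, map_smul, smul_eq_mul, mul_eq_zero] at k
    rw [e, k.resolve_right (tau_eT h hp).ne', zero_smul]

/-- The region below the lid is compact. -/
theorem Ld_cpt (c : ℝ) : IsCompact {p | p ∈ DK M a ∧ 0 ≤ p.1 ∧ Ld M a p ≤ c} := by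
  have d0 := sub_pos.2 (rm_lt h)
  have r0 := rp_pos h
  have a1 : 0 < 1 - rm M a / rp M a := by rw [sub_pos, div_lt_one r0]; exact rm_lt h
  obtain ⟨S, hS⟩ := eventually_atTop.1 ((((tendsto_rpow_neg_atTop a1).const_mul
    ((c + 1) ^ 2)).eventually_lt_const (show (c + 1) ^ 2 * 0 < 1 / 2 by simp)).and
    (eventually_gt_atTop (2 * (rp M a - rm M a))))
  set b := (|c| + 1) * mf M a (rm M a + S)
  let Q := {p | xs p ≠ 0 ∧ |p.1| ≤ b ∧ |kx M a p| ≤ b} ∩
    kr M a ⁻¹' Ici (rm M a + (|c| + 1 + (rp M a - rm M a)⁻¹)⁻¹)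
  have hQ : IsCompact Q := cpt_pre (box_cpt h b)
    (fun p hp => (s_kr contDiffAt_id hp.1).continuousAt.continuousWithinAt) isClosed_Ici
  have sQ : Q ⊆ DK M a := fun p hp => ⟨hp.1.1, lt_of_lt_of_le (lt_add_of_pos_right _
    (by positivity)) hp.2⟩
  have e : {p | p ∈ DK M a ∧ 0 ≤ p.1 ∧ Ld M a p ≤ c} =
      Q ∩ (fun p => (p.1, Ld M a p)) ⁻¹' Ici 0 ×ˢ Iic c := by
    refine Subset.antisymm (fun p ⟨hp, h0, h1⟩ => ⟨?_, h0, h1⟩) fun p hp => ⟨sQ hp.1, hp.2⟩
    have t := (tau_nn hp).2 h0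
    have t2 := congrFun tau0_eq p ▸ t
    have m := mf_pos hp.2
    have s0 := sub_pos.2 hp.2
    rw [Ld] at h1
    have g1 := Gf_nn (eV M a p)
    have g2 := Gf_nn (eU M a p)
    have g3 := Gf_nn (qk M a p)
    have b1 : eV M a p ≤ c + 1 := by linarith [Gf_ge (eV M a p)]
    have b2 : eU M a p ≤ c + 1 := by linarith [Gf_ge (eU M a p)]
    have b3 : qk M a p ≤ c + 1 := by linarith [Gf_ge (qk M a p)]
    have c1 : |eV M a p| ≤ c + 1 := abs_le.2 ⟨by linarith, b1⟩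
    have c2 : |eU M a p| ≤ c + 1 := abs_le.2 ⟨by linarith, b2⟩
    have v : kV M a p = eV M a p * mf M a (kr M a p) := (div_mul_cancel₀ _ m.ne').symm
    have u : kU M a p = eU M a p * mf M a (kr M a p) := (div_mul_cancel₀ _ m.ne').symm
    have hup : kr M a p ≤ rm M a + S := le_of_not_gt fun k => by
      obtain ⟨k1, k2⟩ := hS (kr M a p - rm M a) (by linarith)
      have mm : mf M a (kr M a p) * mf M a (kr M a p) =
          (kr M a p - rm M a) ^ (-(1 - rm M a / rp M a)) * (kr M a p - rm M a) := by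
        rw [mf, ← Real.rpow_add s0, ← Real.rpow_add_one s0.ne']
        congr 1; field_simp; ring
      have k3 : -(eU M a p * eV M a p) ≤ (c + 1) ^ 2 := by
        refine (neg_le_abs _).trans ?_
        rw [sq, abs_mul]
        exact mul_le_mul c2 c1 (abs_nonneg _) ((abs_nonneg _).trans c2)
      have k4 := mul_le_mul_of_nonneg_right k3 (mul_pos m m).le
      have k5 := kr_eq (M := M) (a := a) p
      rw [u, v] at k5
      rw [mm] at k4
      nlinarith [mul_lt_mul_of_pos_right k1 s0]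
    have m1 := mf_mono h hp.2 hup
    have ca := le_abs_self c
    have v1 : |kV M a p| ≤ b := by
      rw [v, abs_mul, abs_of_pos m]; exact mul_le_mul (by linarith) m1 m.le (by positivity)
    have u1 : |kU M a p| ≤ b := by
      rw [u, abs_mul, abs_of_pos m]; exact mul_le_mul (by linarith) m1 m.le (by positivity)
    rw [kV, abs_le] at v1
    rw [kU, abs_le] at u1
    refine ⟨⟨hp.1, abs_le.2 ⟨by linarith, by linarith⟩, abs_le.2 ⟨by linarith, by linarith⟩⟩, ?_⟩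
    have := inv_le_of_inv_le₀ s0 (show _ ≤ |c| + 1 + (rp M a - rm M a)⁻¹ by
      rw [qk] at b3; linarith)
    exact le_sub_iff_add_le'.1 this
  rw [e]
  exact cpt_pre hQ (fun p hp => (continuousAt_fst.prodMk
    (s_Ld (sQ hp)).continuousAt).continuousWithinAt) (isClosed_Ici.prod isClosed_Iic)

/-- The inverse of the chart. -/
theorem ex_Ps : ∃ Ψ : R4 → R4, (∀ p ∈ DK M a, Ψ (Th M a p) = p) ∧
    Pull Ψ (pb Ψ (gK M a)) (Th M a '' DK M a) (gK M a) (DK M a) ∧
    ∀ p ∈ DK M a, ∀ v, fderiv ℝ (Th M a) p (fderiv ℝ Ψ (Th M a p) v) = v := by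
  obtain ⟨Ψ, h1, h2, h3⟩ := P354YO.exists_inv open_DK (fun p hp => (s_Th hp).contDiffWithinAt)
    (Th_inj h) fun p => Th_fd h
  have o : IsOpen (Th M a '' DK M a) := isOpen_iff_mem_nhds.2 (by
    rintro _ ⟨p, hp, rfl⟩
    rw [← h3 p hp]
    exact image_mem_map (open_DK.mem_nhds hp))
  have k : ∀ p ∈ DK M a, ∀ v, fderiv ℝ (Th M a) p (fderiv ℝ Ψ (Th M a p) v) = v :=
    fun p hp v => by
      have m := o.mem_nhds (mem_image_of_mem _ hp)
      have := fd_cp (u := Th M a) (f := Ψ) (u' := id) (by rw [h1 p hp]; exact s_Th hp)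
        (h2.contDiffAt m) (mem_of_superset m (by
          rintro _ ⟨q, hq, rfl⟩
          exact congrArg (Th M a) (h1 q hq))) v
      rwa [h1 p hp, fderiv_id] at this
  refine ⟨Ψ, h1, ⟨o, open_DK, gK_met h, h2, ?_, ?_, fun _ _ _ _ => rfl⟩, k⟩
  · rintro _ ⟨p, hp, rfl⟩
    rwa [h1 p hp]
  · rintro _ ⟨p, hp, rfl⟩
    exact Function.LeftInverse.injective (k p hp)

end

/-- **CORE from FTS.** -/
theorem core_of (F : FTS) : CORE := by
  intro M a h K hK sK N ε hε
  obtain ⟨Ψ, h1, P, k⟩ := ex_Ps h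
  obtain ⟨C, C0, hC⟩ : ∃ C, 0 ≤ C ∧ ∀ p ∈ K, Ld M a p ≤ C := by
    obtain ⟨C, hC⟩ := hK.bddAbove_image (f := Ld M a)
      fun p hp => (s_Ld (sK p hp).1).continuousAt.continuousWithinAt
    exact ⟨|C|, abs_nonneg C, fun p hp => (hC (mem_image_of_mem _ hp)).trans (le_abs_self C)⟩
  have tL : ∀ p, tau0 M a p ≤ Ld M a p := fun p => by
    rw [Ld]; linarith [Gf_nn (eV M a p), Gf_nn (eU M a p), Gf_nn (qk M a p)]
  have lK : Lv (gK M a) (DK M a) := ⟨open_DK, gK_met h, (gK_lor h).vac, (gK_lor h).sig⟩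
  have cS := (Ld_cpt h (C + 2)).image_of_continuousOn (f := Th M a)
    fun p hp => (s_Th hp.1).continuousAt.continuousWithinAt
  have sL : ∀ p ∈ DK M a, ContDiffAt ℝ ∞ (Ld M a) (Ψ (Th M a p)) := fun p hp => by
    rw [h1 p hp]; exact s_Ld hp
  obtain ⟨Φ, s1, s2, s3⟩ := ex_lid P.open' cS (image_mono fun p hp => hp.1)
    (f := fun q => Ld M a (Ψ q) - C) (by
      rintro _ ⟨p, hp, rfl⟩
      exact (((sL p hp).comp _ (pull_at P (mem_image_of_mem _ hp))).sub
        contDiffAt_const).contDiffWithinAt) 2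
  have low : ∀ q : R4, 0 ≤ q.1 → Φ q ≤ 1 → ∃ p, (p ∈ DK M a ∧ 0 ≤ p.1 ∧ Ld M a p ≤ C + 2) ∧
      Th M a p = q := fun q h0 h2 => by
    obtain ⟨⟨p, hp, rfl⟩, e⟩ := s3 q (by linarith)
    rw [h1 p hp] at e
    exact ⟨p, ⟨hp, (tau_nn hp).1 h0, by linarith⟩, rfl⟩
  have dΦ : ∀ p, (p ∈ DK M a ∧ 0 ≤ p.1 ∧ Ld M a p ≤ C + 2) → ∀ v, fderiv ℝ Φ (Th M a p) v =
      fderiv ℝ (Ld M a) p (fderiv ℝ Ψ (Th M a p) v) := fun p hp v => by
    rw [(s2 _ (mem_image_of_mem _ hp)).fderiv_eq, fderiv_sub_const,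
      P354RC.fd_comp (sL p hp.1) (pull_at P (mem_image_of_mem _ hp.1)), h1 p hp.1]
  have dτ : ∀ p ∈ DK M a, ∀ v, fderiv ℝ (tau0 M a) p (fderiv ℝ Ψ (Th M a p) v) = v.1 :=
    fun p hp v => by simpa only [fd_Th hp] using congrArg Prod.fst (k p hp v)
  have dT : ∀ p ∈ DK M a, ∃ c > (0 : ℝ), fderiv ℝ Ψ (Th M a p) eT = c • eT := fun p hp => by
    have e2 : (fderiv ℝ Ψ (Th M a p) eT).2 = 0 := by
      have := congrArg Prod.snd (k p hp eT)
      rwa [fd_Th hp] at this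
    have e : fderiv ℝ Ψ (Th M a p) eT = (fderiv ℝ Ψ (Th M a p) eT).1 • eT :=
      Prod.ext (by simp [eT]) (by rw [e2]; simp [eT])
    have e1 := dτ p hp eT
    rw [e, map_smul, smul_eq_mul] at e1
    exact ⟨_, pos_of_mul_pos_left ((show 0 < eT.1 from one_pos).trans_eq e1.symm) (tau_eT h hp).le, e⟩
  have z : ∀ y, pt 0 y ∈ Th M a '' DK M a → y ≠ 0 := by
    rintro y ⟨p, hp, e⟩ rfl
    exact hp.1 (by rw [← xs_pt 0 0, ← e]; rfl)
  obtain ⟨B, B0, hB⟩ := bd_pb N hK fun p hp => s_Th (sK p hp).1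
  obtain ⟨m, η, η0, H⟩ := F _ _ Φ C (ds M a) (lK.pull P) s1 C0
    (cS.of_isClosed_subset ((isClosed_Icc.preimage continuous_fst).inter
      (isClosed_le s1.continuous continuous_const)) fun q hq => low q hq.1.1 hq.2)
    (fun q hq h2 => by
      obtain ⟨p, hp, rfl⟩ := low q hq.1 h2
      have m := mem_image_of_mem (Th M a) hp.1
      refine ⟨m, fun v v0 e => ?_, ?_, fun v e1 e2 => ?_⟩
      · rw [P.eq _ m, h1 p hp.1]
        exact (tm_tau0 h hp.1).2.2 _ (fun z => v0 (P.inj _ m (z.trans (map_zero _).symm)))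
          (by rw [dτ p hp.1]; rwa [fderiv_fst] at e)
      · obtain ⟨c, c0, e⟩ := dT p hp.1
        rw [dΦ p hp, e, map_smul]
        exact mul_pos c0 (Ld_eT h hp.1 hp.2.1)
      · rw [P.eq _ m, h1 p hp.1] at e1
        rw [dΦ p hp]
        exact Ld_cau h hp.1 hp.2.1 e1 (by rwa [dτ p hp.1]))
    (fun y hy _ => by
      obtain ⟨c, c0, e⟩ := dT _ (p0_mem h (z y hy))
      rw [Th_pt] at e
      refine in0_pull P hy ?_ (by rw [e]; simpa [eT] using c0) ⟨_, in0_gK h (z y hy)⟩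
      filter_upwards [isOpen_compl_singleton.mem_nhds (z y hy)] with u hu
      simpa only [Th_pt] using h1 _ (p0_mem h hu))
    N (ε / (B + 1)) (by positivity)
  obtain ⟨η', η1, hη⟩ := ba_cls M a (cS.image xs_cont) (by
    rintro _ ⟨_, ⟨p, hp, rfl⟩, rfl⟩
    exact hp.1.1) m η0
  refine ⟨m, η', η1, fun d hd => ?_⟩
  obtain ⟨g, D, l, b, I⟩ := H d.1 fun y hy =>
    hη d hd y ⟨_, low (pt 0 y) le_rfl hy.le, xs_pt 0 y⟩
  have Q : Pull (Th M a) (pb (Th M a) g) (DK M a ∩ Th M a ⁻¹' D) g D :=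
    ⟨ContinuousOn.isOpen_inter_preimage (fun p hp => (s_Th hp).continuousAt.continuousWithinAt)
      open_DK l.isOpen, l.isOpen, l.met, fun p hp => (s_Th hp.1).contDiffWithinAt,
      fun p hp => hp.2, fun p hp => Th_fd h hp.1, fun _ _ _ _ => rfl⟩
  have v : ∀ p ∈ K, Φ (Th M a p) ≤ 0 := fun p hp => by
    rw [(s2 _ (mem_image_of_mem _ ⟨(sK p hp).1, (sK p hp).2,
      by linarith [hC p hp]⟩)).eq_of_nhds, h1 p (sK p hp).1]
    linarith [hC p hp]
  have b' := fun p hp => b (Th M a p) ⟨(tau_nn (sK p hp).1).2 (sK p hp).2,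
    (tL p).trans (hC p hp)⟩ (v p hp)
  refine ⟨_, _, l.pull Q, fun p hp => ⟨⟨(sK p hp).1, (b' p hp).1⟩, ?_⟩, fun y hy => ?_⟩
  · have m := mem_image_of_mem (Th M a) (sK p hp).1
    refine P354YO.bd_congr ?_ (bd_mono (hB p hp g _ (D ∩ Th M a '' DK M a) _
      (l.isOpen.inter P.open') (P354XV.met_mono l.met inter_subset_left)
      (P354XV.met_mono (lK.pull P).met inter_subset_right) ⟨(b' p hp).1, m⟩ (b' p hp).2) ?_)
    · filter_upwards [open_DK.mem_nhds (sK p hp).1] with q hq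
      funext v w
      have e := fun v => Th_fd h hq (k q hq (fderiv ℝ (Th M a) q v))
      simp only [pb, Pi.sub_apply, e, h1 q hq]
    · rw [mul_div_assoc', div_le_iff₀ (by positivity)]
      nlinarith
  · have m := (sK _ hy).1
    refine in0_pull Q ⟨m, (b' _ hy).1⟩ (.of_forall Th_pt) ?_ (I y (Th_pt y ▸ v _ hy))
    rw [fd_Th m]
    exact tau_eT h m

end Vale.Agent.P354DT
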