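import Vale.Agent.P354DT.Gen
import Vale.Agent.P354UR.EDefs
import Vale.Agent.P354UR.Fr0
import Vale.Agent.P354XA.Indl

/-!
Close data have close coframes and second fundamental forms.
-/

set_option maxSynthPendingDepth 3

open scoped ContDiff
open Set Filter Topology

noncomputable section

namespace Vale.Agent.P354DT

open Vale.Agent.P354n (R4 mink)
open Vale.Agent.P354I (X Dat ee pd)
open Vale.Agent.P354H (X3)
open Vale.Agent.P354RC (bs at_df at_fd)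
open Vale.Agent.P354XD (tb rp_tb)
open Vale.Agent.P354XE (Tw pt xs eT Bd Lor)
open Vale.Agent.P354XU (L4 IndAt th kk chol)
open Vale.Agent.P354UR (Pd DCL Fr.atb Fr.atE Fr.inv GB_cd GB_ap)
open Vale.Agent.P354YI (Oj Os Jb)
open Vale.Agent.P354YM (Ro)

theorem ex_lin {E F : Type} [NormedAddCommGroup E] [NormedSpace ℝ E] [NormedAddCommGroup F]
    [NormedSpace ℝ F] (L : E →L[ℝ] F) (m : ℕ) : ∃ C, 0 ≤ C ∧ ∀ (f : F → ℝ) x c,
      ContDiffAt ℝ ∞ f (L x) → Jb m f (L x) c → Jb m (fun z => f (L z)) x (C * c) := by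
  let J := {i : (F → ℝ) × E × ℝ // ContDiffAt ℝ ∞ i.1 (L i.2.1) ∧ Jb m i.1 (L i.2.1) i.2.2}
  have a : Oj m (fun i : J => L i.1.2.1) (fun i => i.1.1) fun i => i.1.2.2 :=
    .of (fun i => i.2.1) fun i => i.2.2
  have b : Oj m (fun i : J => i.1.2.1) (fun i z => i.1.1 (L z)) fun i => i.1.2.2 :=
    Oj.comp (f := fun _ => L) (fun _ => L.contDiff.contDiffAt) m
      ((Oj.cst L).congr' fun _ _ => L.fderiv) a
  obtain ⟨C, c0, h⟩ := b.bd
  exact ⟨C, c0, fun f x c a b => h ⟨(f, x, c), a, b⟩⟩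

/-- Uniformly positive matrices, and the columns of the Cholesky factor. -/
def Pc (c B : ℝ) : Set (Fin 3 → Fin 3 → ℝ) :=
  {H | ‖H‖ ≤ B ∧ ∀ u v w : ℝ, c * (u ^ 2 + v ^ 2 + w ^ 2) ≤ u ^ 2 * H 0 0 + v ^ 2 * H 1 1 +
    w ^ 2 * H 2 2 + 2 * (u * v * H 0 1 + u * w * H 0 2 + v * w * H 1 2)}
def col (i : Fin 3) (H : Fin 3 → Fin 3 → ℝ) : R4 := pt 0 (WithLp.toLp 2 fun k => chol H k i)

theorem pc_cpt (c B : ℝ) : IsCompact (Pc c B) := by
  refine (isCompact_closedBall 0 B).of_isClosed_subset ?_ fun _ h => mem_closedBall_zero_iff.2 h.1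
  simp only [Pc, ofPred_and, ofPred_forall]
  exact (isClosed_le continuous_norm continuous_const).inter (isClosed_iInter fun _ =>
    isClosed_iInter fun _ => isClosed_iInter fun _ => isClosed_le (by fun_prop) (by fun_prop))

theorem pc_cvx (c B : ℝ) : Convex ℝ (Pc c B) := fun H h K k a b ha hb e =>
  ⟨mem_closedBall_zero_iff.1 (convex_closedBall 0 B (mem_closedBall_zero_iff.2 h.1)
    (mem_closedBall_zero_iff.2 k.1) ha hb e), fun u v w => by
    have := add_le_add (mul_le_mul_of_nonneg_left (h.2 u v w) ha)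
      (mul_le_mul_of_nonneg_left (k.2 u v w) hb)
    rw [← add_mul, e, one_mul] at this
    refine this.trans_eq ?_
    simp only [Pi.add_apply, Pi.smul_apply, smul_eq_mul]
    ring⟩

theorem pc_pd {c B : ℝ} (hc : 0 < c) {H : Fin 3 → Fin 3 → ℝ} (h : H ∈ Pc c B) : Pd H := by
  have p0 : 0 < H 0 0 := hc.trans_le (by simpa using h.2 1 0 0)
  have p1 : 0 < H 1 1 - H 0 1 ^ 2 / H 0 0 :=
    (lt_of_lt_of_le (by positivity) (h.2 (-(H 0 1 / H 0 0)) 1 0)).trans_eq (by field_simp; ring)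
  refine ⟨p0, p1, ?_⟩
  obtain ⟨t, ht⟩ : ∃ t, H 1 2 - H 0 1 * H 0 2 / H 0 0 = t * (H 1 1 - H 0 1 ^ 2 / H 0 0) :=
    ⟨_, (div_mul_cancel₀ _ p1.ne').symm⟩
  rw [ht, mul_pow, mul_div_assoc, sq (_ - _), mul_div_cancel_right₀ _ p1.ne']
  refine (lt_of_lt_of_le (by positivity) (h.2 ((t * H 0 1 - H 0 2) / H 0 0) (-t) 1)).trans_eq ?_
  rw [sub_eq_iff_eq_add.1 ht]
  field_simp
  ring

theorem col_cd {H : Fin 3 → Fin 3 → ℝ} (P : Pd H) (i : Fin 3) : ContDiffAt ℝ ∞ (col i) H := by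
  have hH : ∀ i k, ContDiffAt ℝ ∞ (fun K : Fin 3 → Fin 3 → ℝ => K i k) H := fun _ _ => by fun_prop
  have a := (hH 0 0).sqrt P.p0.ne'
  have q := (hH 1 1).sub (((hH 0 1).pow 2).div (hH 0 0) P.p0.ne')
  have r := (hH 1 2).sub (((hH 0 1).mul (hH 0 2)).div (hH 0 0) P.p0.ne')
  have b := q.sqrt P.p1.ne'
  have z : ContDiffAt ℝ ∞ (fun _ => (0 : ℝ)) H := contDiffAt_const
  fin_cases i
  · exact z.prodMk (a.prodMk (z.prodMk z))
  · exact z.prodMk (((hH 0 1).div a P.pos.1.ne').prodMk (b.prodMk z))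
  · exact z.prodMk (((hH 0 2).div a P.pos.1.ne').prodMk ((r.div b P.pos.2.1.ne').prodMk
      ((((hH 2 2).sub (((hH 0 2).pow 2).div (hH 0 0) P.p0.ne')).sub
        ((r.pow 2).div q P.p1.ne')).sqrt P.p2.ne')))

theorem oj_mat {J : Type} {m : ℕ} {x : J → X3} {H : J → X3 → Fin 3 → Fin 3 → ℝ} {μ : J → ℝ}
    (h : ∀ a b, Oj m x (fun j z => H j z a b) μ) : Oj m x H μ :=
  (Oj.sum Finset.univ (h 0 0).nn fun a _ => .sum Finset.univ (h 0 0).nn fun b _ =>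
    (h a b).smull (.cst (Pi.single a (Pi.single b 1) : Fin 3 → Fin 3 → ℝ))).congr' fun j z => by
      ext a b
      fin_cases a <;> fin_cases b <;> simp [Fin.sum_univ_three]

theorem col_lip (B B' : ℝ) {c : ℝ} (hc : 0 < c) : ∃ C, 0 ≤ C ∧
    ∀ (H K : X3 → Fin 3 → Fin 3 → ℝ) x η, η ≤ 1 → H x ∈ Pc c B' → K x ∈ Pc c B' →
      (∀ a b, ContDiffAt ℝ ∞ (H · a b) x ∧ ContDiffAt ℝ ∞ (K · a b) x ∧ Jb 2 (H · a b) x B ∧
        Jb 2 (fun z => K z a b - H z a b) x η) →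
      ∀ i, Jb 2 (fun z => col i (K z) - col i (H z)) x (C * η) := by
  let J := {j : (X3 → Fin 3 → Fin 3 → ℝ) × (X3 → Fin 3 → Fin 3 → ℝ) × X3 × ℝ // j.2.2.2 ≤ 1 ∧
    j.1 j.2.2.1 ∈ Pc c B' ∧ j.2.1 j.2.2.1 ∈ Pc c B' ∧ ∀ a b, ContDiffAt ℝ ∞ (j.1 · a b) j.2.2.1 ∧
      ContDiffAt ℝ ∞ (j.2.1 · a b) j.2.2.1 ∧ Jb 2 (j.1 · a b) j.2.2.1 B ∧
      Jb 2 (fun z => j.2.1 z a b - j.1 z a b) j.2.2.1 j.2.2.2}
  have h1 : Oj 2 (fun j : J => j.1.2.2.1) (fun j => j.1.1) 1 :=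
    oj_mat fun a b => .of1 (fun j => (j.2.2.2.2 a b).1) fun j => (j.2.2.2.2 a b).2.2.1
  have h2 : Oj 2 (fun j : J => j.1.2.2.1) (fun j z => j.1.2.1 z - j.1.1 z) fun j => j.1.2.2.2 :=
    oj_mat fun a b => .of (fun j => (j.2.2.2.2 a b).2.1.sub (j.2.2.2.2 a b).1)
      fun j => (j.2.2.2.2 a b).2.2.2
  have h3 : Oj 2 (fun j : J => j.1.2.2.1) (fun j => j.1.2.1) 1 :=
    ((h2.mono le_rfl fun j => j.2.1).add h1).congr' fun _ _ => (sub_add_cancel _ _).symm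
  have G : ∀ i, Os 3 (fun _ : J => Pc c B') (fun _ => col i) 1 := fun i =>
    Oj.fix (pc_cpt c B') (fun _ h => col_cd (pc_pd hc h) i) fun j => j.2
  choose C c0 hC using fun i => (Oj.lip h3.sm h1.sm
    (fun j => (pc_cvx c B').segment_subset j.2.2.2.1 j.2.2.1) 2 h3.fd h1.fd h2 (G i)).bd
  refine ⟨∑ i, C i, Finset.sum_nonneg fun i _ => c0 i, fun H K x η a1 a2 a3 a4 i =>
    (hC i ⟨(H, K, x, η), a1, a2, a3, a4⟩).mono le_rfl ?_⟩
  simp only [Pi.mul_apply, Pi.one_apply, one_mul]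
  exact mul_le_mul_of_nonneg_right (Finset.single_le_sum (fun i _ => c0 i) (Finset.mem_univ i))
    (a4 0 0).2.2.2.nonneg

variable {g : Tw} {D Ω : Set R4} {Xf c b : R4 → R4} {d : Dat} {E : R4 → L4} {y : X} {p : R4}

theorem bs_pt (i : Fin 3) : bs i.succ = pt 0 (ee i) := by
  fin_cases i <;> simp [bs, pt, ee]

theorem kk_cd (l : Lor g D Xf) (R : Ro g D Xf d c Ω b E) (hp : p ∈ Ω) (u v : R4) :
    ContDiffAt ℝ ∞ (kk g b E u v) p := by
  have r := rp_tb l.isOpen l.met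
  have s := Fr.atb R.rol.toFr hp
  have m := R.rol.maps hp
  have k := fun w => (at_fd s).clm_apply (contDiffAt_const (c := w))
  refine (((((r.at m).comp p s).clm_apply ((Fr.atE R.rol.toFr hp).clm_apply
    (contDiffAt_const (c := eT)))).clm_apply ((((at_fd (at_fd s)).clm_apply
      (contDiffAt_const (c := u))).clm_apply (contDiffAt_const (c := v))).add
      ((((GB_cd r m).comp p s).clm_apply (k u)).clm_apply (k v)))).neg).congr_of_eventuallyEq ?_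
  filter_upwards [R.rol.isOpen.mem_nhds hp] with q hq
  rw [kk, r.eq _ (R.rol.maps hq), ← GB_ap]
  rfl

/-- The coframe and the second fundamental form on the slice in terms of the data. -/
theorem ro_dat (l : Lor g D Xf) (R : Ro g D Xf d c Ω b E) (hy : pt 0 y ∈ Ω)
    (I : IndAt g Xf (pt 0) d y) (i j : Fin 3) : th b E (pt 0 y) (bs i.succ) = col i (d.h y) ∧
      kk g b E (bs i.succ) (bs j.succ) (pt 0 y) = d.K y i j ∧
      g (pt 0 y) (bs i.succ) (bs j.succ) = d.h y i j := by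
  have ev : ∀ {y}, pt 0 y ∈ Ω → ∀ᶠ z in 𝓝 y, pt 0 z ∈ Ω := fun h =>
    ptL.continuous.continuousAt.eventually (R.rol.isOpen.mem_nhds h)
  have fx : ∀ {y}, pt 0 y ∈ Ω → ∀ u, fderiv ℝ b (pt 0 y) (pt 0 u) = pt 0 u := fun h =>
    fix_fd (Fr.atb R.rol.toFr h) ((ev h).mono fun z hz => (R.st z hz).1)
  obtain ⟨e0, e1, e2⟩ := R.st y hy
  obtain ⟨G, n, hc, n1, n2, k⟩ := I
  simp only [pd_pt, fun i (c : R4) => P354XK.pd_const (y := y) c i, zero_add] at k e2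
  have m := e0 ▸ R.rol.maps hy
  have r := rp_tb l.isOpen l.met
  have on := e0 ▸ R.rol.on _ hy
  have s := Fr.atb R.rol.toFr hy
  have sp : ∀ w, (∀ i, g (pt 0 y) (pt 0 (ee i)) w = 0) → ∀ v : R4, v.1 = 0 →
      tb g (pt 0 y) v w = 0 := fun w h v hv => by
    rw [P354XA.sp_eq hv]
    simp only [map_add, map_smul, add_apply, smul_apply, ← P354XA.pL_eq, ← r.eq _ m, h, smul_zero,
      add_zero]
  have a1 := sp n fun i => (k i i).1
  have a2 := sp (E (pt 0 y) eT) fun i => by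
    rw [e2, on]
    simp [mink, P354n.cu, P354n.cv, P354n.c1, P354n.c2, eT, pt]
  have a3 : tb g (pt 0 y) (E (pt 0 y) eT) (E (pt 0 y) eT) = -1 := by
    rw [← r.eq _ m, on]
    simp [mink, P354n.cu, P354n.cv, P354n.c1, P354n.c2, eT]
  have a4 : (E (pt 0 y) eT).1 ≠ 0 := fun e => by linarith [a2 _ e]
  have en : n = E (pt 0 y) eT := by
    rw [r.eq _ m] at n1 n2 e1
    generalize E (pt 0 y) eT = w at *
    have z : ∀ v : R4, (v - (v.1 / w.1) • w).1 = 0 := fun v => by simp [a4]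
    have e := sub_eq_zero.1 (r.nd _ m (n - (n.1 / w.1) • w) fun v => by
      have b1 := a1 _ (z v)
      have b2 := a2 _ (z v)
      have b3 := a2 _ (z n)
      simp only [map_sub, map_smul, sub_apply, smul_apply, smul_eq_mul, r.symm _ m v,
        r.symm _ m w n] at b1 b2 b3 ⊢
      linear_combination b1 - n.1 / w.1 * b2 + v.1 / w.1 * b3)
    generalize n.1 / w.1 = t at e
    rw [e] at n1 n2 ⊢
    simp only [map_smul, smul_apply, a3, smul_eq_mul] at n1 n2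
    rw [show t = 1 by nlinarith [pos_of_mul_neg_left n2 e1.le], one_smul]
  rw [bs_pt, bs_pt]
  refine ⟨?_, ?_, (k i j).2.1⟩
  · rw [th, ContinuousLinearMap.comp_apply, fx hy, e2, (Fr.inv R.rol.toFr l.met hy).inverse_apply_self]
    rfl
  · have z : fderiv ℝ (fderiv ℝ b) (pt 0 y) (pt 0 (ee i)) (pt 0 (ee j)) = 0 := by
      have := P354XK.pd_ap (c := fun z => fderiv ℝ b (pt 0 z)) (u := fun _ => pt 0 (ee j))
        ((at_fd s).comp y ptL.contDiff.contDiffAt) contDiffAt_const i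
      rw [P354XK.pd_congr (g := fun _ => pt 0 (ee j)) ((ev hy).mono fun z hz => fx hz _),
        P354XK.pd_const, map_zero, add_zero, P354XK.pd_cp (at_fd s) ptL.contDiff.contDiffAt,
        pd_pt] at this
      exact this.symm
    rw [kk, z, zero_add, e0, fx hy, fx hy, ← (k i j).2.2, (r.conn m).1 hc, en]

/-- The space part on the slice as a linear map. -/
def xL : X3 →L[ℝ] X := ∑ i : Fin 3, ((P354RC.cv i.succ).comp (.inr ℝ ℝ X3)).smulRight (ee i)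

theorem xL_eq (x : X3) : xL x = xs (0, x) := by
  ext i
  fin_cases i <;> simp [xL, xs, Fin.sum_univ_three, P354RC.cv, ee]

theorem abs3 (u v w : ℝ) : |u| ≤ ‖((0, u, v, w) : R4)‖ ∧ |v| ≤ ‖((0, u, v, w) : R4)‖ ∧
    |w| ≤ ‖((0, u, v, w) : R4)‖ :=
  have a := norm_snd_le ((0, u, v, w) : R4)
  have b := (norm_snd_le (u, v, w)).trans a
  ⟨(norm_fst_le (u, v, w)).trans a, (norm_fst_le (v, w)).trans b, (norm_snd_le (v, w)).trans b⟩

theorem quad (l : Lor g D Xf) (m : p ∈ D) {H : Fin 3 → Fin 3 → ℝ}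
    (e : ∀ i j, g p (bs i.succ) (bs j.succ) = H i j) (u v w : ℝ) :
    g p (0, u, v, w) (0, u, v, w) = u ^ 2 * H 0 0 + v ^ 2 * H 1 1 + w ^ 2 * H 2 2 +
      2 * (u * v * H 0 1 + u * w * H 0 2 + v * w * H 1 2) := by
  have r := rp_tb l.isOpen l.met
  rw [show ((0, u, v, w) : R4) = u • bs (Fin.succ 0) + v • bs (Fin.succ 1) + w • bs (Fin.succ 2) by
    simp [bs], r.eq _ m]
  simp only [← e, r.eq _ m, map_add, map_smul, add_apply, smul_apply, smul_eq_mul,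
    r.symm _ m (bs (Fin.succ 1)) (bs (Fin.succ 0)), r.symm _ m (bs (Fin.succ 2)) (bs (Fin.succ 0)),
    r.symm _ m (bs (Fin.succ 2)) (bs (Fin.succ 1))]
  ring

theorem mem_pc (l : Lor g D Xf) (m : p ∈ D) {H : Fin 3 → Fin 3 → ℝ} {B c : ℝ} (hc : 0 ≤ c)
    (e : ∀ i j, g p (bs i.succ) (bs j.succ) = H i j) (a : ∀ i j, |H i j| ≤ B)
    (k : ∀ v : R4, v.1 = 0 → c * ‖v‖ ^ 2 ≤ g p v v) : H ∈ Pc (c / 3) B := by
  have b := (abs_nonneg _).trans (a 0 0)
  refine ⟨(pi_norm_le_iff_of_nonneg b).2 fun i => (pi_norm_le_iff_of_nonneg b).2 (a i),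
    fun u v w => le_trans ?_ ((k (0, u, v, w) rfl).trans_eq (quad l m e u v w))⟩
  obtain ⟨n1, n2, n3⟩ := abs3 u v w
  nlinarith [mul_le_mul_of_nonneg_left (add_le_add (add_le_add (sq_le_sq.2 (n1.trans (le_abs_self _)))
    (sq_le_sq.2 (n2.trans (le_abs_self _)))) (sq_le_sq.2 (n3.trans (le_abs_self _)))) hc]

theorem sp_near {g' : Tw} {D' : Set R4} {X' : R4 → R4} (l : Lor g D Xf) (m : p ∈ D)
    (l' : Lor g' D' X') (m' : p ∈ D') {c η : ℝ} (a : 18 * η ≤ c) (k : ∀ i j : Fin 3,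
      |g' p (bs i.succ) (bs j.succ) - g p (bs i.succ) (bs j.succ)| ≤ η)
    (sp : ∀ v : R4, v.1 = 0 → c * ‖v‖ ^ 2 ≤ g p v v) :
    ∀ v : R4, v.1 = 0 → c / 2 * ‖v‖ ^ 2 ≤ g' p v v := by
  rintro ⟨_, u, v, w⟩ rfl
  have s := sp (0, u, v, w) rfl
  rw [quad l m fun _ _ => rfl] at s
  rw [quad l' m' fun _ _ => rfl]
  obtain ⟨n1, n2, n3⟩ := abs3 u v w
  generalize ‖((0, u, v, w) : R4)‖ = N at s n1 n2 n3 ⊢
  have t := fun i j (a b : ℝ) (ha : |a| ≤ N) (hb : |b| ≤ N) => neg_le_of_abs_le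
    ((abs_mul _ _).trans_le (mul_le_mul ((abs_mul _ _).trans_le (mul_le_mul ha hb (abs_nonneg _)
      ((abs_nonneg _).trans ha))) (k i j) (abs_nonneg _) (mul_self_nonneg _)))
  linarith [t 0 0 u u n1 n1, t 0 1 u v n1 n2, t 0 2 u w n1 n3, t 1 1 v v n2 n2,
    t 1 2 v w n2 n3, t 2 2 w w n3 n3, mul_le_mul_of_nonneg_left a (sq_nonneg N)]

/-- **DCL.** -/
theorem dcl : DCL := by
  intro B c0 hc ε hε
  obtain ⟨C1, c1, h1⟩ := ex_lin xL 2
  obtain ⟨C2, -, h2⟩ := ex_lin (.inr ℝ ℝ X3) 2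
  obtain ⟨C3, c3, h3⟩ := col_lip (C2 * B) (|B| + 1) (show 0 < c0 / 2 / 3 by positivity)
  have lt : ∀ a c : ℝ, 0 < c → ∀ᶠ η in 𝓝[>] (0 : ℝ), a * η < c := fun a c hc =>
    ((continuous_const.mul continuous_id).continuousAt.eventually_lt_const
      (by simpa using hc)).filter_mono nhdsWithin_le_nhds
  obtain ⟨η, ⟨⟨a1, a2⟩, a3, a4, a5⟩, η0⟩ := ((((lt C1 1 one_pos).and (lt C1 ε hε)).and
    ((lt (C3 * C1) ε hε).and ((lt 18 c0 hc).and (lt 1 1 one_pos)))).and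
    self_mem_nhdsWithin).exists
  refine ⟨η, η0, fun g D Xf d c Ω b E g' D' X' d' c' Ω' b' E' y l R l' R' hy hy' I hB sp hd => ?_⟩
  obtain ⟨x, rfl⟩ : ∃ x, y = xL x := ⟨(pt 0 y).2, ((xL_eq _).trans (P354UR.xs_pt 0 y)).symm⟩
  have px : ∀ x, pt 0 (xL x) = (0, x) := fun x => by rw [xL_eq]; rfl
  have cp : ContDiffAt ℝ ∞ (pt 0) (xL x) := ptL.contDiff.contDiffAt
  have ev := (I.and ((cp.continuousAt.eventually (R.rol.isOpen.mem_nhds hy)).and
    (cp.continuousAt.eventually (R'.rol.isOpen.mem_nhds hy')))).mono fun z hz i j =>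
      And.intro (ro_dat l R hz.2.1 hz.1.1 i j) (ro_dat l' R' hz.2.2 hz.1.2 i j)
  have ex := xL.continuous.continuousAt.eventually ev
  have m := (R.st _ hy).1 ▸ R.rol.maps hy
  have m' := (R'.st _ hy').1 ▸ R'.rol.maps hy'
  have s := fun v w => (l.met.smooth v w).contDiffAt (l.isOpen.mem_nhds m)
  have s' := fun v w => (l'.met.smooth v w).contDiffAt (l'.isOpen.mem_nhds m')
  have sh : ∀ i j, ContDiffAt ℝ ∞ (d.h · i j) (xL x) ∧ ContDiffAt ℝ ∞ (d'.h · i j) (xL x) :=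
    fun i j => ⟨((s _ _).comp _ cp).congr_of_eventuallyEq (ev.mono fun z hz => (hz i j).1.2.2.symm),
      ((s' _ _).comp _ cp).congr_of_eventuallyEq (ev.mono fun z hz => (hz i j).2.2.2.symm)⟩
  have e0 := ev.self_of_nhds
  have b0 := fun i j => abs_le.1 (Real.norm_eq_abs _ ▸ Jb.zero (hd i j).1)
  have sp' := sp_near l m l' m' a4.le (fun i j => by
    rw [(e0 i j).1.2.2, (e0 i j).2.2.2]
    exact abs_le.2 (b0 i j)) sp
  have bB : ∀ i j, |d.h (xL x) i j| ≤ |B| := fun i j => by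
    have := hB 0 (by simp) (bs i.succ) (bs j.succ)
    rw [norm_iteratedFDeriv_zero, (e0 i j).1.2.2, P354YI.norm_bs, P354YI.norm_bs] at this
    exact this.trans ((by simp : B * (1 * 1) = B).trans_le (le_abs_self B))
  have cx : ContDiffAt ℝ ∞ xL x := xL.contDiff.contDiffAt
  have k1 := mem_pc l m (half_pos hc).le (fun i j => (e0 i j).1.2.2) (B := |B| + 1)
    (fun i j => (bB i j).trans (by linarith)) fun v hv => le_trans
      (mul_le_mul_of_nonneg_right (half_le_self hc.le) (sq_nonneg _)) (sp v hv)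
  have k2 := mem_pc l' m' (half_pos hc).le (fun i j => (e0 i j).2.2.2) (B := |B| + 1)
    (fun i j => abs_le.2 ⟨by linarith [(b0 i j).1, neg_le_of_abs_le (bB i j)],
      by linarith [(b0 i j).2, le_of_abs_le (bB i j)]⟩) sp'
  have k3 : ∀ i j, Jb 2 (fun z => d.h (xL z) i j) x (C2 * B) := fun i j =>
    (h2 (fun p => g p (bs i.succ) (bs j.succ)) x B (px x ▸ s _ _ :) fun k hk => by
      simpa only [px, P354YI.norm_bs, mul_one, ContinuousLinearMap.inr_apply] using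
        hB k hk (bs i.succ) (bs j.succ)).congr
      (ex.mono fun z hz => (px z ▸ (hz i j).1.2.2.symm :))
  have key := h3 (fun z => d.h (xL z)) (fun z => d'.h (xL z)) x (C1 * η) a1.le k1 k2 fun i j =>
    ⟨(sh i j).1.comp x cx, (sh i j).2.comp x cx, k3 i j,
      h1 (fun z => d'.h z i j - d.h z i j) x η ((sh i j).2.sub (sh i j).1) (hd i j).1⟩
  refine ⟨fun i j => ?_, sp'⟩
  have k4 := h1 (fun z => d'.K z i j - d.K z i j) x η
    ((((kk_cd l' R' hy' _ _).comp _ cp).sub ((kk_cd l R hy _ _).comp _ cp)).congr_of_eventuallyEq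
      (ev.mono fun z hz => congrArg₂ _ (hz i j).2.2.1.symm (hz i j).1.2.1.symm)) (hd i j).2
  rw [px]
  refine ⟨Jb.mono ((key i).congr (ex.mono fun z hz => ?_)) le_rfl (by linarith),
    Jb.mono (k4.congr (ex.mono fun z hz => ?_)) le_rfl a2.le⟩
  · simp only [← px, (hz i j).1.1, (hz i j).2.1]
  · simp only [← px, (hz i j).1.2.1, (hz i j).2.2.1]

end Vale.Agent.P354DT
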