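import Vale.Agent.P354DT.Gen
import Vale.Agent.P354YM.Props
import Vale.Agent.P354YC.Gu
import Vale.Agent.P354XA.Indl
import Vale.Agent.P354YI.Near
import Vale.Agent.P354UG.Nice
import Vale.Agent.P354YR.Vac

/-!
The data induced on a slice depend continuously on the metric.
-/

set_option maxSynthPendingDepth 3

open scoped ContDiff
open Set Filter Topology

noncomputable section

namespace Vale.Agent.P354DT

open Vale.Agent.P354n (R4)
open Vale.Agent.P354I (X Dat ee pd)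
open Vale.Agent.P354R (Met Pull chr)
open Vale.Agent.P354RC (k2 p_at at_df at_fd surj_of_inj)
open Vale.Agent.P354XD (tb rp_tb)
open Vale.Agent.P354XE (Tw pt xs eT Bd pb Lor Ft)
open Vale.Agent.P354XK (pd_cp pd_congr)
open Vale.Agent.P354XU (IndAt)
open Vale.Agent.P354XV (Lv In0 Nice)
open Vale.Agent.P354YM (DLIP DJ Emb)

variable {f X' : R4 → R4} {g g' : Tw} {D D' : Set R4} {d : Dat} {y : X} {J : X → R4}

/-- The data induced on a slice, in a chart in which the slice is t = 0. -/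
theorem in0_ind (l : Lor g' D' X') (P : Pull f g D g' D') (hy : pt 0 y ∈ D)
    (e : ∀ᶠ z in 𝓝 y, f (pt 0 z) = J z) (o : Ft g' X' (f (pt 0 y)) (fderiv ℝ f (pt 0 y) eT))
    (I : IndAt g' X' J d y) : In0 g d y := by
  obtain ⟨G, n, c, n1, n2, k⟩ := I
  obtain ⟨u, rfl⟩ := surj_of_inj (P.inj _ hy) n
  have m := P.maps hy
  have c0 : ∀ z, ContDiffAt ℝ ∞ (pt 0) z := fun _ => ptL.contDiff.contDiffAt
  have e1 : ∀ i, ∀ᶠ z in 𝓝 y, pd i J z = fderiv ℝ f (pt 0 z) (pt 0 (ee i)) := fun i => by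
    filter_upwards [e.eventually_nhds, (c0 y).continuousAt.eventually (P.open'.mem_nhds hy)]
      with z h1 h2
    rw [← pd_congr (EventuallyEq.symm h1).symm, pd_cp (p_at P h2) (c0 z), pd_pt]
  have e2 : ∀ i j, pd i (pd j J) y =
      fderiv ℝ (fun q => fderiv ℝ f q (pt 0 (ee j))) (pt 0 y) (pt 0 (ee i)) := fun i j => by
    rw [pd_congr (e1 j), pd_cp (c := fun q => fderiv ℝ f q (pt 0 (ee j)))
      ((at_fd (p_at P hy)).clm_apply contDiffAt_const) (c0 y), pd_pt]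
  simp only [← e.self_of_nhds, fun i => (e1 i).self_of_nhds, e2] at c n1 n2 k
  have r := rp_tb P.open' (k2.1 _ _ _ _ _ P)
  have r' := rp_tb l.isOpen l.met
  have h1 := P354YC.cone l m (l.tl _ m) (n1.trans_lt (by norm_num)) n2 o.1.le o.2
  have h2 : ∀ i, tb g (pt 0 y) (pt 0 (ee i)) u = 0 := fun i => by
    rw [← r.eq _ hy, P.eq _ hy, (k i i).1]
  rw [← P.eq _ hy] at n1 h1
  refine ⟨u, n1, ?_, fun i j => ⟨(r.eq _ hy _ _).trans (h2 i), (P.eq _ hy _ _).trans (k i j).2.1,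
    ?_⟩⟩
  · have z : tb g (pt 0 y) (u - u.1 • eT) u = 0 := by
      rw [P354XA.sp_eq (v := u - u.1 • eT) (by simp [eT])]
      simp only [map_add, map_smul, add_apply, smul_apply, ← P354XA.pL_eq, h2, smul_zero, add_zero]
    rw [map_sub, map_smul, sub_apply, smul_apply, ← r.eq _ hy, n1, r.symm _ hy, ← r.eq _ hy,
      smul_eq_mul] at z
    nlinarith
  · rw [← (k i j).2.2, k2.2.2.2.2 _ _ _ _ _ P _ hy, (r'.conn m).1 c, r'.chr m, ← r'.gm m,
      r'.eq _ m, r'.eq _ m, r'.symm _ m (fderiv ℝ f (pt 0 y) u), map_add, add_apply, add_comm]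

/-- The largest set on which a smooth map is a local isometry for the pulled back metric. -/
theorem pull_max {O : Set R4} (hO : IsOpen O) (s : ContDiffOn ℝ ∞ f O) (o : IsOpen D)
    (m : Met g D) :
    Pull f (pb f g) {q ∈ O | f q ∈ D ∧ Function.Injective (fderiv ℝ f q)} g D := by
  refine ⟨isOpen_iff_mem_nhds.2 fun q hq => ?_, o, m, s.mono fun _ h => h.1, fun _ h => h.2.1,
    fun _ h => h.2.2, fun _ _ _ _ => rfl⟩
  have a := s.contDiffAt (hO.mem_nhds hq.1)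
  filter_upwards [hO.mem_nhds hq.1, a.continuousAt.eventually (o.mem_nhds hq.2.1),
    P354YI.ev_inv (at_fd a).continuousAt (P354YC.inv_of hq.2.2)] with z h1 h2 ⟨A, h3⟩
  exact ⟨h1, h2, h3 ▸ A.injective⟩

/-- **DLIP.** -/
theorem dlip : DLIP := by
  intro W g Xf J d0 A O l pd hA hO s hJ H ζ hζ
  have key : ∀ᶠ η in 𝓝 (0 : ℝ), ∀ y ∈ A, ∀ K b g' D' X' d', Lor g' D' X' → MapsTo J A K →
      Emb K g Xf g' X' 12 η b → MapsTo b K D' → y ∈ interior A →
      (∀ᶠ z in 𝓝 y, IndAt g' X' (b ∘ J) d' z) → DJ 11 d' d0 y ζ := by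
    refine hA.eventually_forall_of_forall_eventually fun y0 hy0 => ?_
    obtain ⟨W0, S, -, l0, m0, S0, is, -, -, i0⟩ := P354YC.chart l hO (s hy0) hJ fun z hz =>
      ⟨(H z hz).2.1, (pd.2 z (H z hz).1).1, (H z hz).2.2⟩
    have P0 := P354YC.pull_of l0 l l0.isOpen fun p hp => ⟨hp, is p hp⟩
    have v0 : Lv (pb S g) W0 := ⟨l0.isOpen, l0.met, l0.vac, l0.sig⟩
    obtain ⟨B, B0, hB⟩ := P354UG.nice_at 12 v0 m0.1 contDiffAt_fst (P354UG.spl_fst.2 fun v a a' => by
      obtain ⟨n, -, -, k⟩ := i0.self_of_nhds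
      rw [P354XJ.xs_pt] at k
      have := (P354YC.Sp.of (L := ptL) (P354XJ.bilin_of l0 m0.1) (l0.met.symm _ m0.1)
        (pd.2 y0 (H y0 (s hy0)).1).1 fun i j => ⟨(k i j).1, (k i j).2.1⟩).pos (xs v) fun e =>
          a (by rw [split_eT v, a', e]; simp [pt])
      rw [split_eT v, a', zero_smul, zero_add]
      exact this)
    have t0 := l0.tl _ m0.1
    obtain ⟨V, ⟨V1, V2⟩, hV⟩ := (compact_basis_nhds y0).eventually_iff.1
      (ptL.continuous.continuousAt.eventually (hB.and (i0.and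
        ((P354YI.Lv.at v0 m0.1 eT eT).continuousAt.eventually_lt_const
          (show pb S g (pt 0 y0) eT eT < pb S g (pt 0 y0) eT eT / 2 by linarith)))))
    obtain ⟨C, -, hC⟩ := bd_pb 12 (V2.image ptL.continuous) (f := S) (by
      rintro _ ⟨z, hz, rfl⟩
      exact (is _ (hV hz).1.1).2.1)
    obtain ⟨C', hC'⟩ := P354XA.indl 11 (2 * B)
    have lt : ∀ a c : ℝ, 0 < c → ∀ᶠ η in 𝓝 (0 : ℝ), a * η < c := fun a c hc =>
      (continuous_const.mul continuous_id).continuousAt.eventually_lt_const (by simpa using hc)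
    filter_upwards [((lt (C' * C) ζ hζ).and ((lt (C * (1 + B) ^ 3) _ (lt_min B0 one_half_pos)).and
      (lt C (-pb S g (pt 0 y0) eT eT / 2) (by linarith)))).prod_nhds
      (eventually_mem_nhds_iff.2 V1)]
    rintro ⟨η, y⟩ ⟨⟨a1, a2, a3⟩, a4⟩ K b g' D' X' d' l' mJ em mb hy I
    obtain ⟨Ob, o1, o2, o3⟩ := em.sm
    have P1 := pull_max o1 o3 l'.isOpen l'.met
    have v1 := Lv.pull ⟨l'.isOpen, l'.met, l'.vac, l'.sig⟩ P1
    have P2 : Pull S (pb S (pb b g')) (W0 ∩ S ⁻¹' _) (pb b g') _ :=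
      ⟨P0.smooth.continuousOn.isOpen_inter_preimage l0.isOpen P1.open', P1.open', v1.met,
        P0.smooth.mono inter_subset_left, fun _ h => h.2, fun _ h => P0.inj _ h.1,
        fun _ _ _ _ => rfl⟩
    have v2 := v1.pull P2
    obtain ⟨U, U1, U2, U3⟩ := eventually_nhds_iff.1
      (I.and ((show ∀ᶠ z in 𝓝 y, z ∈ V from a4).and (mem_interior_iff_mem_nhds.1 hy)))
    have := (hC' _ _ _ _ d' d0 U (C * η) U2 v2 v0 (fun z hz => ?_) y U3).2
    · exact fun i j => ⟨(this i j).1.mono le_rfl (by linarith),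
        (this i j).2.mono le_rfl (by linarith)⟩
    obtain ⟨⟨w1, w2⟩, w3, w4⟩ := hV (U1 z hz).2.1
    have k : S (pt 0 z) ∈ K := S0 z ▸ mJ (U1 z hz).2.2
    have m1 : pt 0 z ∈ W0 ∩ S ⁻¹' {q ∈ Ob | b q ∈ D' ∧ Function.Injective (fderiv ℝ b q)} :=
      ⟨w1, o2 k, mb k, em.inj _ k⟩
    have bd := hC _ ⟨z, (U1 z hz).2.1, rfl⟩ _ _ _ η (P1.open'.inter l.isOpen)
      (P354YR.met_mono v1.met inter_subset_left) (P354YR.met_mono l.met inter_subset_right)
      ⟨m1.2, P0.maps w1⟩ (em.cl _ k)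
    refine ⟨m1, w1, in0_ind (f := b ∘ S) l' (P354YR.pull_comp P1 P2) m1
      (.of_forall fun z => congrArg b (S0 z)) ?_ (U1 z hz).1, P354XJ.xs_pt 0 z ▸ w3, P354YI.nice_near v2 v0 m1 w1 w2 bd (by linarith),
      P354UG.nice_mono w2 B0 (by linarith), bd⟩
    rw [fderiv_comp _ (at_df (p_at P1 m1.2)) (at_df (p_at P2 m1))]
    refine em.fut _ k _ ⟨l0.tl _ w1, (is _ w1).2.2.2⟩ ?_
    have := (abs_le.1 (P354YI.bd_zero bd eT eT)).2
    rw [P354XV.norm_eT, mul_one, mul_one] at this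
    exact (show pb S (pb b g') (pt 0 z) eT eT < 0 by
      linarith [show pb S (pb b g') (pt 0 z) eT eT - pb S g (pt 0 z) eT eT ≤ C * η from this,
        show pb S g (pt 0 z) eT eT < _ from w4])
  obtain ⟨η, h1, h2⟩ := ((key.filter_mono nhdsWithin_le_nhds).and
    (self_mem_nhdsWithin (s := Ioi 0))).exists
  exact ⟨η, h2, fun K b g' D' X' d' l' mJ em mb y hy =>
    h1 y (interior_subset hy) K b g' D' X' d' l' mJ em mb hy⟩

end Vale.Agent.P354DT
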