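import Vale.Agent.P354YI.Defs
import Vale.Agent.P354YI.Met
import Vale.Agent.P354XQ.Top
import Vale.Agent.P354XV.Loc
import Vale.Agent.P354DT.LocOf

/-!
Tools for changes of charts which fix the initial slice.
-/

set_option maxSynthPendingDepth 3

open scoped ContDiff
open Set Filter Topology

noncomputable section

namespace Vale.Agent.P354DT

open Vale.Agent.P354n (R4)
open Vale.Agent.P354I (X Dat ee pd)
open Vale.Agent.P354R (Met Pull chr)
open Vale.Agent.P354RC (k2 p_at at_df at_fd surj_of_inj)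
open Vale.Agent.P354XD (tb rp_tb)
open Vale.Agent.P354XS (BA ds wi)
open Vale.Agent.P354XE (Tw pt xs eT Bd pb)
open Vale.Agent.P354XV (Lv In0)
open Vale.Agent.P354YI (Oj Jb Gd Cls)

variable {f : R4 → R4} {g g' : Tw} {D D' : Set R4} {d : Dat} {y : X}

theorem split_eT (v : R4) : v = v.1 • eT + pt 0 (xs v) := by
  simp [eT, pt, xs]

theorem fix_fd (s : ContDiffAt ℝ ∞ f (pt 0 y)) (e : ∀ᶠ z in 𝓝 y, f (pt 0 z) = pt 0 z) (u : X) :
    fderiv ℝ f (pt 0 y) (pt 0 u) = pt 0 u := by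
  have a : HasFDerivAt (fun z => f (ptL z)) ((fderiv ℝ f (pt 0 y)).comp ptL) y :=
    (at_df s).hasFDerivAt.comp y ptL.hasFDerivAt
  exact congrArg (· u) (a.unique (ptL.hasFDerivAt.congr_of_eventuallyEq e))

/-- The induced data do not change under maps which fix the slice. -/
theorem in0_pull (P : Pull f g' D' g D) (hy : pt 0 y ∈ D')
    (e : ∀ᶠ z in 𝓝 y, f (pt 0 z) = pt 0 z) (o : 0 < (fderiv ℝ f (pt 0 y) eT).1)
    (I : In0 g d y) : In0 g' d y := by
  obtain ⟨n, n1, n2, n3⟩ := I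
  obtain ⟨u, rfl⟩ := surj_of_inj (P.inj _ hy) n
  have s := p_at P hy
  have k := fix_fd s e
  have e0 := e.self_of_nhds
  refine ⟨u, by rw [P.eq _ hy, e0, n1], ?_, fun i j => ?_⟩
  · rw [split_eT u, map_add, map_smul, k] at n2
    have : 0 < u.1 * (fderiv ℝ f (pt 0 y) eT).1 := by simpa [pt] using n2
    exact pos_of_mul_pos_left this o.le
  · obtain ⟨a, b, c⟩ := n3 i j
    refine ⟨by rw [P.eq _ hy, e0, k, a], by rw [P.eq _ hy, e0, k, k, b], ?_⟩
    have z : fderiv ℝ (fun z => fderiv ℝ f z (pt 0 (ee j))) (pt 0 y) (pt 0 (ee i)) = 0 := by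
      have s2 : ContDiffAt ℝ ∞ (fun z => fderiv ℝ f z (pt 0 (ee j))) (pt 0 y) :=
        (at_fd s).clm_apply contDiffAt_const
      have a : HasFDerivAt (fun z => fderiv ℝ f (ptL z) (pt 0 (ee j)))
          ((fderiv ℝ (fun z => fderiv ℝ f z (pt 0 (ee j))) (pt 0 y)).comp ptL) y :=
        (at_df s2).hasFDerivAt.comp y ptL.hasFDerivAt
      have e2 : (fun z => fderiv ℝ f (ptL z) (pt 0 (ee j))) =ᶠ[𝓝 y] fun _ => pt 0 (ee j) := by
        filter_upwards [e.eventually_nhds, ptL.continuous.continuousAt.eventually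
          (P.open'.mem_nhds hy)] with z h1 h2 using fix_fd (p_at P h2) h1 _
      exact congrArg (· (ee i)) (a.unique ((hasFDerivAt_const _ y).congr_of_eventuallyEq e2))
    have l := P.met.lin _ (P.maps hy)
    have sy := P.met.symm _ (P.maps hy)
    rw [k2.2.2.2.2 _ _ _ _ _ P _ hy, z, sy, (l _).map_zero, add_zero, e0, k, k, c]

/-- The pull back of a small difference of metrics is small. -/
theorem bd_pb (N : ℕ) {K : Set R4} (hK : IsCompact K) (s : ∀ p ∈ K, ContDiffAt ℝ ∞ f p) :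
    ∃ C, 0 ≤ C ∧ ∀ p ∈ K, ∀ g g' D ε, IsOpen D → Met g D → Met g' D → f p ∈ D →
      Bd N (g - g') (f p) ε → Bd N (pb f (g - g')) p (C * ε) := by
  let J := {i : R4 × Tw × Tw × Set R4 × ℝ // i.1 ∈ K ∧ IsOpen i.2.2.2.1 ∧ Met i.2.1 i.2.2.2.1 ∧
    Met i.2.2.1 i.2.2.2.1 ∧ f i.1 ∈ i.2.2.2.1 ∧ Bd N (i.2.1 - i.2.2.1) (f i.1) i.2.2.2.2}
  have a : Oj N (fun i : J => f i.1.1) (fun i => tb (i.1.2.1 - i.1.2.2.1)) fun i => i.1.2.2.2.2 :=
    Oj.tb (fun ⟨_, _, o, m, m', h, _⟩ v w => ((m.smooth v w).contDiffAt (o.mem_nhds h)).sub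
      ((m'.smooth v w).contDiffAt (o.mem_nhds h))) fun i => i.2.2.2.2.2.2
  have b := Oj.pb (f := fun _ : J => f) (fun i => s _ i.2.1)
    (Oj.fix hK (fun p hp => at_fd (s p hp)) fun i => i.2.1) a
  obtain ⟨C, c0, hC⟩ := b.bd' (g := fun i => pb f (i.1.2.1 - i.1.2.2.1))
    fun ⟨⟨p, g, g', D, ε⟩, hp, o, m, m', h, _⟩ => by
      filter_upwards [(s p hp).continuousAt.eventually (o.mem_nhds h)] with z hz v w
      rw [P354RC.pb_ap, P354YI.tb_sub, sub_apply, sub_apply, ← (rp_tb o m).eq _ hz, ← (rp_tb o m').eq _ hz]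
      rfl
  exact ⟨C, c0, fun p hp g g' D ε o m m' h k => hC ⟨(p, g, g', D, ε), hp, o, m, m', h, k⟩⟩

/-- The data in a small ball are close to the Kerr data on compact sets. -/
theorem ba_cls (M a : ℝ) {K : Set X} (hK : IsCompact K) (h0 : ∀ y ∈ K, y ≠ 0) (m : ℕ) {ε : ℝ}
    (hε : 0 < ε) : ∃ η > 0, ∀ d ∈ BA M a m η, ∀ y ∈ K, Gd d.1 y ∧ Cls m ε d.1 (ds M a) y := by
  obtain ⟨ρ, r0, hρ⟩ := hK.exists_forall_le' continuous_norm.continuousOn
    fun y hy => norm_pos_iff.2 (h0 y hy)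
  obtain ⟨R, hR⟩ := hK.isBounded.exists_pos_norm_le
  set r := min ρ 1
  have r1 : 0 < r := lt_min r0 one_pos
  have R0 := hR.1
  refine ⟨(R + r⁻¹)⁻¹ * r ^ (2 + m) * ε, by positivity, fun d hd y hy => ?_⟩
  have y0 := h0 y hy
  have n0 := norm_pos_iff.2 y0
  have o : ({0}ᶜ : Set X) ∈ 𝓝 y := isOpen_compl_singleton.mem_nhds y0
  refine ⟨⟨fun i j => ⟨(d.2.1.1 i j).1.contDiffAt o, (d.2.1.1 i j).2.contDiffAt o⟩,
    ⟨(d.2.1.2 y y0).1.isHermitian, (d.2.1.2 y y0).2⟩, d.2.2.1 y y0⟩, fun i j => ?_⟩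
  have ry : r ≤ ‖y‖ := (min_le_left _ _).trans (hρ y hy)
  have w1 : (R + r⁻¹)⁻¹ ≤ wi y := inv_anti₀ (by positivity)
    (add_le_add (hR.2 y hy) (inv_anti₀ r1 ry))
  have w2 : (R + r⁻¹)⁻¹ ≤ 1 := inv_le_one_of_one_le₀
    (by linarith [one_le_inv₀ r1 |>.2 (min_le_right ρ 1)])
  have key : ∀ (w : X → ℝ) (F : X → ℝ), (R + r⁻¹)⁻¹ ≤ w y →
      P354XS.wq w m F ≤ ENNReal.ofReal ((R + r⁻¹)⁻¹ * r ^ (2 + m) * ε) → Jb m F y ε :=
    fun w F hw hF k hk => by
      have b := P354XQ.le_of_wq hk (by positivity) hF y0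
      have c : r ^ (2 + m) ≤ ‖y‖ ^ (2 + k) :=
        (pow_le_pow_of_le_one r1.le (min_le_right _ _) (show 2 + k ≤ 2 + m by omega)).trans
          (by gcongr)
      refine le_of_mul_le_mul_left (le_trans ?_ b) (by positivity)
      have : 0 ≤ w y := le_trans (by positivity) hw
      gcongr
  have q := P354XQ.qm_parts (le_of_lt hd) i j
  exact ⟨key _ _ w1 q.1, key _ _ w2 q.2⟩

/-- A function which is smooth near a compact set agrees there with a smooth function without new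
low values. -/
theorem ex_lid {O K : Set R4} (hO : IsOpen O) (hK : IsCompact K) (s : K ⊆ O) {f : R4 → ℝ}
    (hf : ContDiffOn ℝ ∞ f O) (c : ℝ) : ∃ F, ContDiff ℝ ∞ F ∧ (∀ p ∈ K, F =ᶠ[𝓝 p] f) ∧
      ∀ p, F p < c → p ∈ O ∧ f p < c := by
  obtain ⟨L, hL, h1, h2⟩ := exists_compact_between hK hO s
  obtain ⟨χ, a, b, e⟩ := exists_contMDiffMap_one_nhds_of_subset_interior (n := ⊤)
    (modelWithCornersSelf ℝ R4) hK.isClosed h1
  refine ⟨fun p => χ p * (f p - c) + c, contDiff_iff_contDiffAt.2 fun p => ?_, fun p hp =>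
    (a.filter_mono (nhds_le_nhdsSet hp)).mono fun q k => by simp only [k, one_mul, sub_add_cancel],
    fun p hp => ?_⟩
  · refine ContDiffAt.add ?_ contDiffAt_const
    by_cases m : p ∈ L
    · exact χ.contMDiff.contDiff.contDiffAt.mul
        ((hf.contDiffAt (hO.mem_nhds (h2 m))).sub contDiffAt_const)
    · exact (contDiffAt_const (c := (0 : ℝ))).congr_of_eventuallyEq
        ((hL.isClosed.isOpen_compl.eventually_mem m).mono fun q k => by simp only [b q k, zero_mul])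
  · have k : χ p * (f p - c) < 0 := by linarith
    refine ⟨h2 (by_contra fun m => ?_), sub_neg.1 (neg_of_mul_neg_right k (e p).1)⟩
    rw [b p m, zero_mul] at k
    exact k.false

end Vale.Agent.P354DT
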