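import Vale.Agent.P354MG.Two
import Vale.Agent.P354EF.ShK
import Vale.Agent.P354YQ.Wo

/-!
LAYM: the metric of the collar in the chart of the estimates, with weights.
-/

set_option maxSynthPendingDepth 3

open scoped ContDiff
open Set Filter Topology

noncomputable section

namespace Vale.Agent.P354DT

open Vale.Agent.P354n (R4)
open Vale.Agent.P354RC (B2)
open Vale.Agent.P354BF (De)
open Vale.Agent.P354XD (tb)
open Vale.Agent.P354XE (Tw gin rd eT dr Om pb Bd)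
open Vale.Agent.P354XA (ip rd_cd rd_fd dr_eq rd_cont gin_bil)
open Vale.Agent.P354XM (rot rot_ap hin_sh hin_ap)
open Vale.Agent.P354YI
open Vale.Agent.P354YO (sh IsTh Sb pr0 shell_cpt tb_ap bil_sub rd_sh sb_gin)
open Vale.Agent.P354YQ (Sy ri ri_nn it_sc rd_sm Om_sm Om_cd r_pos r_one r_ri r_sc sy_sm)
open Vale.Agent.P354Z (hs js)
open Vale.Agent.P354EF (sh_fd th_cd)
open Vale.Agent.P354MG (kE LAYM)

/-- The parameters M0, M, a and a point. -/
abbrev Zp : Type := (ℝ × ℝ × ℝ) × R4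

/-- The angular velocity, the derivative of the chart up to a rotation, and Kerr in the chart. -/
def omz (z : Zp) : ℝ := 2 * (z.1.2.2 / De z.1.2.1 z.1.2.2 (rd z.2))
def lam (z : Zp) : R4 →L[ℝ] R4 :=
  .id ℝ R4 + (fderiv ℝ rd z.2).smulRight ((2 * (rd z.2 ^ 2 + z.1.2.2 ^ 2) /
    De z.1.2.1 z.1.2.2 (rd z.2) - 4 * z.1.1 ^ 2 / rd z.2 ^ 2 - 1) • eT + omz z • Om 2 z.2)
def kk (z : Zp) : B2 := pl (tb (gin z.1.2.1 z.1.2.2) z.2) (lam z) (lam z)

/-- The good points. -/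
def Gz (z : Zp) : Prop := ‖z.1‖ ≤ 1 / 4 ∧ rd z.2 = 1

section
variable {z : Zp} (h : Gz z)
include h

theorem z_rd : ContDiffAt ℝ ∞ (fun z : Zp => rd z.2) z :=
  at_comp (G := rd) (rd_cd (h.2 ▸ one_ne_zero)) contDiffAt_snd

theorem z_De : ContDiffAt ℝ ∞ (fun z : Zp => De z.1.2.1 z.1.2.2 (rd z.2)) z ∧
    De z.1.2.1 z.1.2.2 (rd z.2) ≠ 0 := by
  refine ⟨(((z_rd h).pow 2).sub ((contDiffAt_const.mul contDiffAt_fst.snd.fst).mul (z_rd h))).add
    (contDiffAt_fst.snd.snd.pow 2), ne_of_gt ?_⟩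
  have := (abs_le.1 ((norm_fst_le z.1.2).trans ((norm_snd_le z.1).trans h.1))).2
  rw [h.2, De]
  nlinarith [sq_nonneg z.1.2.2]

theorem z_dr : ContDiffAt ℝ ∞ (fun z : Zp => fderiv ℝ rd z.2) z :=
  (at_fd (rd_cd (h.2 ▸ one_ne_zero))).comp z contDiffAt_snd

theorem z_om : ContDiffAt ℝ ∞ omz z :=
  contDiffAt_const.mul (contDiffAt_fst.snd.snd.div (z_De h).1 (z_De h).2)

theorem z_lam : ContDiffAt ℝ ∞ lam z :=
  contDiffAt_const.add (at_bil (ContinuousLinearMap.smulRightL ℝ R4 R4) (z_dr h)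
    ((((((contDiffAt_const.mul (((z_rd h).pow 2).add (contDiffAt_fst.snd.snd.pow 2))).div
      (z_De h).1 (z_De h).2).sub ((contDiffAt_const.mul (contDiffAt_fst.fst.pow 2)).div
      ((z_rd h).pow 2) (pow_ne_zero 2 (h.2 ▸ one_ne_zero)))).sub contDiffAt_const).smul
      contDiffAt_const).add ((z_om h).smul ((Om_cd 2).contDiffAt.comp z contDiffAt_snd))))

theorem z_kk : ContDiffAt ℝ ∞ kk z := by
  have g : ContDiffAt ℝ ∞ (fun z : Zp => tb (gin z.1.2.1 z.1.2.2) z.2) z :=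
    ContDiffAt.sum fun _ _ => ContDiffAt.sum fun _ _ => (P354YR.s_gin contDiffAt_snd
      (P354YR.xs_ne (h.2 ▸ one_pos)) contDiffAt_fst.snd.fst contDiffAt_fst.snd.snd _ _).smul
      contDiffAt_const
  have f := (ContinuousLinearMap.flipₗᵢ ℝ R4 R4 ℝ).toContinuousLinearEquiv.contDiff (n := ∞)
  exact f.contDiffAt.comp z ((f.contDiffAt.comp z (g.clm_comp (z_lam h))).clm_comp (z_lam h))

end

/-- Families of functions on the unit sphere which depend on parameters. -/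
theorem oj_par {J W : Type} [NormedAddCommGroup W] [NormedSpace ℝ W] {F : Zp → W}
    (hF : ∀ z, Gz z → ContDiffAt ℝ ∞ F z) {y : J → R4} (hy : ∀ j, rd (y j) = 1) (n : ℕ)
    {p p' : J → ℝ × ℝ × ℝ} (h : ∀ j, ‖p j‖ ≤ 1 / 4) (h' : ∀ j, ‖p' j‖ ≤ 1 / 4) {μ : J → ℝ}
    (hμ : ∀ j, ‖p j - p' j‖ ≤ μ j) : Oj n y (fun j x => F (p j, pr0 x)) 1 ∧
      Oj n y (fun j x => F (p j, pr0 x) - F (p' j, pr0 x)) μ := by
  have o : ∀ m, Os m (fun j => Metric.closedBall (0 : ℝ × ℝ × ℝ) (1 / 4) ×ˢ {pr0 (y j)})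
      (fun _ => F) 1 := fun m => Oj.fix ((isCompact_closedBall 0 (1 / 4)).prod (shell_cpt 1 1))
    (fun z hz => hF z ⟨mem_closedBall_zero_iff.1 hz.1, le_antisymm hz.2.2.2 hz.2.2.1⟩)
    fun i => mem_prod.2 ⟨i.2.1, (show i.1.2.2 = _ from i.2.2).symm ▸ ⟨rfl, (hy _).ge, (hy _).le⟩⟩
  have s : ∀ (c : ℝ × ℝ × ℝ) x, ContDiffAt ℝ ∞ (fun x => (c, pr0 x)) x := fun _ _ =>
    contDiffAt_const.prodMk pr0.contDiff.contDiffAt
  have d : ∀ q : J → ℝ × ℝ × ℝ, Oj (n - 1) y (fun j => fderiv ℝ fun x => (q j, pr0 x)) 1 := fun _ =>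
    (Oj.cst ((0 : R4 →L[ℝ] ℝ × ℝ × ℝ).prod pr0)).congr' fun _ _ =>
      ((hasFDerivAt_const _ _).prodMk pr0.hasFDerivAt).fderiv
  refine ⟨Oj.comp (fun _ => s _ _) n (d p) ((o n).at id fun j =>
    ⟨mem_closedBall_zero_iff.2 (h j), rfl⟩), ?_⟩
  have := Oj.lip (μ := μ) (fun j => s (p j) _) (fun j => s (p' j) _) (fun j =>
    ((convex_closedBall _ _).prod (convex_singleton _)).segment_subset
      ⟨mem_closedBall_zero_iff.2 (h j), rfl⟩ ⟨mem_closedBall_zero_iff.2 (h' j), rfl⟩) n (d p) (d p')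
    ((Oj.const (v := fun j => (p j - p' j, (0 : R4))) (fun j => (norm_nonneg _).trans (hμ j))
      ⟨1, fun j => by simpa using hμ j⟩).congr' fun _ _ => by simp) (o (n + 1))
  rwa [one_mul] at this

theorem rot_eq (t : ℝ) : rot t = (1 / 2 : ℝ) • (rot 0 + rot Real.pi) + (Real.cos t •
    (1 / 2 : ℝ) • (rot 0 - rot Real.pi) + Real.sin t • (1 / 2 : ℝ) •
      (rot (Real.pi / 2) - rot (-(Real.pi / 2)))) := by
  refine ContinuousLinearMap.ext fun v => ?_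
  ext <;> simp [rot_ap, P354XM.sh] <;> ring

theorem oj_rot {J : Type} (n : ℕ) (t : J → ℝ) : Oj n t (fun _ => rot) 1 := by
  have c : Oj n t (fun _ => Real.cos) 1 := .of1 (B := 1) (fun _ => Real.contDiff_cos.contDiffAt)
    fun _ k _ => norm_iteratedFDeriv_eq_norm_iteratedDeriv.trans_le
      (Real.abs_iteratedDeriv_cos_le_one k _)
  have s : Oj n t (fun _ => Real.sin) 1 := .of1 (B := 1) (fun _ => Real.contDiff_sin.contDiffAt)
    fun _ k _ => norm_iteratedFDeriv_eq_norm_iteratedDeriv.trans_le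
      (Real.abs_iteratedDeriv_sin_le_one k _)
  exact ((Oj.cst _).add ((c.smull (.cst _)).add (s.smull (.cst _)))).congr' fun _ => rot_eq

variable {M0 M a r : ℝ} {A B : ℝ → ℝ} {y : R4}

theorem De_sc (h : r ≠ 0) (s : ℝ) : De M a (r * s) = r ^ 2 * De (r⁻¹ * M) (r⁻¹ * a) s := by
  unfold De
  field_simp

theorem far_fd (h0 : 0 < M0) (t : IsTh M0 M a A B) (hM : M ≤ 3 / 2 * M0) (hr : 0 < r)
    (h : 6 * M0 ≤ r * rd y) :
    HasDerivAt (fun s => B (r * s)) (omz (r⁻¹ • (M0, M, a), pr0 y)) (rd y) ∧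
    fderiv ℝ (sh A B) (r • y) = (rot (B (r * rd y))).comp (lam (r⁻¹ • (M0, M, a), pr0 y)) := by
  have y0 : rd y ≠ 0 := fun e => by rw [e] at h; linarith
  have c : P354Z.cut M0 (M, a, r * rd y) = 1 := by
    rw [P354Z.cut, P354XT.up_one (by linarith) h, P354XT.dn_one (by linarith) hM, one_mul]
  have e : omz (r⁻¹ • (M0, M, a), pr0 y) = 2 * js M0 (M, a, r * rd y) * r := by
    change 2 * (r⁻¹ * a / De (r⁻¹ * M) (r⁻¹ * a) (rd y)) = _
    simp only [js, c, De_sc hr.ne']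
    field_simp
  refine ⟨((t _).2.comp _ ((hasDerivAt_id (rd y)).const_mul r)).congr_deriv (by rw [e, mul_one, id]),
    ContinuousLinearMap.ext fun v => ?_⟩
  have q := rd_sm hr.le y
  rw [sh_fd (q ▸ mul_ne_zero hr.ne' y0) (t _).1 (t _).2, q, Om_sm, smul_smul, ← e]
  change _ = rot _ (v + fderiv ℝ rd (pr0 y) v • ((2 * (rd y ^ 2 + (r⁻¹ * a) ^ 2) /
    De (r⁻¹ * M) (r⁻¹ * a) (rd y) - 4 * (r⁻¹ * M0) ^ 2 / rd y ^ 2 - 1) • eT + _ • Om 2 y))
  rw [rd_fd (p := pr0 y) y0, show dr (r • y) v = dr (pr0 y) v by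
    rw [dr_eq, q, show dr (pr0 y) v = dr y v from rfl, dr_eq, show ip (r • y) v = r * ip y v by
      simp [ip]; ring, mul_div_mul_left _ _ hr.ne']]
  congr 5
  simp only [hs, c, De_sc hr.ne']
  field_simp
  ring

theorem far_kE (h0 : 0 < M0) (t : IsTh M0 M a A B) (hM : M ≤ 3 / 2 * M0) (hr : 0 < r)
    (h : 6 * M0 ≤ r * rd y) (v w : R4) :
    kE M a A B (r • y) v w = kk (r⁻¹ • (M0, M, a), pr0 y) v w := by
  have := P354XA.gin_sc (M := M) (a := a) (p := y) hr 0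
  rw [show ((0, 0) : R4) = 0 from rfl, add_zero] at this
  rw [kE, pb, (far_fd h0 t hM hr h).2, ← hin_ap (M, a), ← rd_sm hr.le]
  refine ((hin_sh (M, a) _ _ (r • y) _ _).trans (hin_ap _ _ _ _)).trans ?_
  rw [this]
  exact (tb_ap (gin_bil _ _ _) _ _).symm

theorem laym : LAYM := by
  intro M a R A B n h hR t
  have M0 := P354YR.M_pos h
  let J := {i : Tw × ((ℝ × ℝ) × (ℝ → ℝ) × (ℝ → ℝ)) × R4 × ℝ //
    IsTh M i.2.1.1.1 i.2.1.1.2 i.2.1.2.1 i.2.1.2.2 ∧ |i.2.1.1.1 - M| + |i.2.1.1.2 - a| ≤ M / 2 ∧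
    R ≤ rd i.2.2.1 ∧ 0 ≤ i.2.2.2 ∧ Sb i.1 (sh A B i.2.2.1) ∧
    Sm n i.2.2.2 (i.1 - gin M a) (sh A B i.2.2.1)}
  let q : J → R4 := fun j => j.1.2.2.1
  let δ : J → ℝ := fun j => |j.1.2.1.1.1 - M| + |j.1.2.1.1.2 - a|
  let y : J → R4 := fun j => ri q j • q j
  have hq : ∀ j, 1 + 4 * M ≤ rd (q j) := fun j => by linarith [j.2.2.2.1]
  have r0 := r_pos M0.le hq
  have hy : ∀ j, rd (y j) = 1 := fun j => by rw [rd_sm (ri_nn j), mul_comm, r_ri M0.le hq]
  have nb : ∀ j m b, |m| ≤ 3 / 2 * M → |b| ≤ 3 / 2 * M → ‖ri q j • (M, m, b)‖ ≤ 1 / 4 :=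
    fun j m b hm hb => by
      rw [norm_smul, Real.norm_of_nonneg (ri_nn j), inv_mul_le_iff₀ (r0 j)]
      refine le_trans (b := 3 / 2 * M) (max_le ?_ (max_le hm hb)) (by linarith [j.2.2.2.1])
      rw [Real.norm_of_nonneg M0.le]
      linarith
  have n1 := fun j => nb j M a (by rw [abs_of_pos M0]; linarith) (by linarith)
  have m' : ∀ j : J, |j.1.2.1.1.1| ≤ 3 / 2 * M := fun j => by
    linarith [j.2.2.1, abs_nonneg (j.1.2.1.1.2 - a), abs_sub_abs_le_abs_sub j.1.2.1.1.1 M,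
      abs_of_pos M0]
  have n2 := fun j : J => nb j _ j.1.2.1.1.2 (m' j) (by
    linarith [j.2.2.1, abs_nonneg (j.1.2.1.1.1 - M), abs_sub_abs_le_abs_sub j.1.2.1.1.2 a])
  have dd : ∀ j : J, ‖ri q j • (M, M, a) - ri q j • (M, j.1.2.1.1.1, j.1.2.1.1.2)‖ ≤
      (δ * ri q) j := fun j => by
    rw [← smul_sub, norm_smul, Real.norm_of_nonneg (ri_nn j), mul_comm, norm_sub_rev]
    refine mul_le_mul_of_nonneg_right (max_le (by simp only [Prod.fst_sub, sub_self, norm_zero]; positivity)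
      (max_le (le_add_of_nonneg_right (abs_nonneg _)) (le_add_of_nonneg_left (abs_nonneg _))))
      (ri_nn j)
  have ev : ∀ j, ∀ᶠ x in 𝓝 (y j), 6 * M < rd (q j) * rd x := fun j =>
    continuousAt_const.eventually_lt (continuousAt_const.mul rd_cont.continuousAt)
      (by rw [hy, mul_one]; linarith [j.2.2.2.1])
  have fd := fun j x (hx : 6 * M < rd (q j) * rd x) => far_fd M0 t (by linarith) (r0 j) hx.le
  have y0 : ∀ j, rd (y j) ≠ 0 := fun j => (hy j).symm ▸ one_ne_zero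
  have θ : Oj n y (fun j x => rot (B (rd (q j) * rd x))) 1 :=
    Oj.comp (f := fun j x => B (rd (q j) * rd x)) (fun j => (th_cd M0 t).2.contDiffAt.comp _
      (contDiffAt_const.mul (rd_cd (y0 j)))) n
      (((oj_par (fun _ => z_om) hy _ n1 n2 dd).1.smull
        (oj_par (fun _ => z_dr) hy _ n1 n2 dd).1).congr fun j => by
        filter_upwards [ev j, ev_dif (rd_cd (y0 j)), rd_cont.continuousAt.eventually_ne (y0 j)]
          with x h1 h2 h3
        rw [show fderiv ℝ rd (pr0 x) = fderiv ℝ rd x from ContinuousLinearMap.ext fun v =>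
          (rd_fd (p := pr0 x) h3 v).trans (rd_fd h3 v).symm]
        exact ((fd j x h1).1.comp_hasFDerivAt x h2.hasFDerivAt).fderiv) (oj_rot n _)
  let φ : J → R4 → R4 := fun j x => ri q j • sh A B (rd (q j) • x)
  have sc : ∀ j, ContDiffAt ℝ ∞ (fun x => sh A B (rd (q j) • x)) (y j) := fun j =>
    at_comp (G := sh A B) ((r_sc M0.le hq j).symm ▸ P354YO.sh_cd (r0 j).ne'
      (th_cd M0 t).1.contDiffAt (th_cd M0 t).2.contDiffAt) (contDiffAt_id.const_smul _)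
  have dφ : ∀ j x, fderiv ℝ (φ j) x = fderiv ℝ (sh A B) (rd (q j) • x) := fun j x => by
    rw [show φ j = ri q j • fun x => sh A B (rd (q j) • x) from rfl, fderiv_const_smul_field,
      Pi.smul_apply, fderiv_comp_smul, smul_smul, mul_comm, r_ri M0.le hq, one_smul]
  have H := sy_sm (x := fun j => sh A B (q j)) M0.le (fun j => (rd_sh A B _).symm ▸ hq j)
    (fun j => j.2.2.2.2.2.1.sub (sb_gin ((rd_sh A B _).symm ▸ r0 j))) (fun j => j.2.2.2.2.1)
    fun j => j.2.2.2.2.2.2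
  simp only [Sy, ri, rd_sh] at H
  have P := Oj.pb (f := φ) (fun j => (sc j).const_smul _) ((θ.cl
    (oj_par (fun _ => z_lam) hy n n1 n2 dd).1).congr fun j => (ev j).mono fun x hx =>
      (dφ j x).trans (fd j x hx).2) (by simpa only [φ, y, r_sc M0.le hq] using H)
  have K := (oj_par (fun _ => z_kk) hy n n1 n2 dd).2
  have l0 : ∀ j, 0 ≤ ri q j := ri_nn
  obtain ⟨C, C0, hC⟩ := ((P.mono le_rfl (ν := fun j => (j.1.2.2.2 + δ j) * ri q j) fun j =>
    mul_le_mul (le_add_of_nonneg_right (by positivity)) (by simp only [ri, rd_sh, le_refl])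
      (ri_nn j) (add_nonneg j.2.2.2.2.1 (by positivity))).add (K.mono le_rfl fun j =>
      mul_le_mul_of_nonneg_right (le_add_of_nonneg_left j.2.2.2.2.1) (l0 j))).bd'
    (g := fun j x => (pb (sh A B) j.1.1 - kE j.1.2.1.1.1 j.1.2.1.1.2 j.1.2.1.2.1 j.1.2.1.2.2)
      (rd (q j) • x)) fun j => by
      have b : ∀ᶠ z in 𝓝 (sh A B (rd (q j) • y j)), P354.Bilin (j.1.1 z) := by
        rw [r_sc M0.le hq]
        exact j.2.2.2.2.2.1.bl
      filter_upwards [ev j, (sc j).continuousAt.eventually b] with x h1 h2 v w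
      simp only [add_apply, sub_apply, P354RC.pb_ap, dφ, φ, smul_smul, r_ri M0.le hq, one_smul,
        Pi.sub_apply, ← far_kE M0 t (by linarith) (r0 j) h1.le,
        ← far_kE M0 j.2.1 ((le_abs_self _).trans (m' j)) (r0 j) h1.le,
        tb_ap (g := j.1.1 - gin M a) (bil_sub h2 (gin_bil M a _))]
      exact (sub_add_sub_cancel _ _ _).symm
  refine ⟨C * 2 ^ (n + 1), M / 2, by positivity, fun g M' a' A' B' x d h1 h2 h3 h4 h5 h6 k hk v w => ?_⟩
  let j : J := ⟨(g, ((M', a'), A', B'), x, d), h1, h2, h3, h4, h5, h6⟩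
  have e := hC j k hk v w
  have r1 : 1 ≤ rd x := r_one M0.le hq j
  rw [it_sc (r0 j).ne' fun z => (pb (sh A B) g - kE M' a' A' B') z v w, r_sc M0.le hq j, norm_smul,
    Real.norm_of_nonneg (pow_pos (r0 j) k).le, ← le_div_iff₀' (pow_pos (r0 j) k)] at e
  refine e.trans ?_
  change C * ((d + (|M' - M| + |a' - a|)) * (rd x)⁻¹) * _ / rd x ^ k ≤ _
  rw [mul_div_right_comm]
  refine mul_le_mul_of_nonneg_right ?_ (by positivity)
  rw [← mul_assoc, ← div_eq_mul_inv, div_div, ← pow_succ', div_le_div_iff₀ (by positivity)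
    (by positivity), mul_right_comm C (2 ^ _), mul_assoc _ (2 ^ _)]
  refine mul_le_mul_of_nonneg_left ?_ (by positivity)
  calc (1 + rd x) ^ (k + 1) ≤ (2 * rd x) ^ (k + 1) := by gcongr; linarith
    _ ≤ _ := by rw [mul_pow]; gcongr; norm_num

end Vale.Agent.P354DT
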