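import Vale.Agent.P354YI.Defs2
import Vale.Agent.P354YI.Int
import Vale.Agent.P354YQ.Reg
import Vale.Agent.P354YO.OutA1
import Vale.Agent.P354YA.One

/-!
RG2: the change of gauge of REG, cut off by a function with values in [0, 1].
-/

set_option maxSynthPendingDepth 3

open scoped ContDiff
open Set Filter Topology

noncomputable section

namespace Vale.Agent.P354DT

open Vale.Agent.P354n (R4)
open Vale.Agent.P354R (Met Pull)
open Vale.Agent.P354RC (B2)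
open Vale.Agent.P354XD (tb rp_tb)
open Vale.Agent.P354XE (Tw eT pb Bd)
open Vale.Agent.P354XV (Lv Gq)
open Vale.Agent.P354YI (Oj Os Jb RgIn RG2 bd_le jb_bil oj_pb_id oj_sub ev_dif)

theorem rg_le {N m m' B r ε A O D g0 g f π w0} (h : RgIn N m B r ε A O D g0 g f π w0)
    (e : m' ≤ m) : RgIn N m' B r ε A O D g0 g f π w0 :=
  ⟨h.lv0, h.lv, h.opn, h.sm, h.star, h.sub, h.gau, fun z hz =>
    have k := h.bd z hz
    ⟨k.1, k.2.1, k.2.2.1.mono e le_rfl, k.2.2.2.1.mono e le_rfl,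
      fun a => (k.2.2.2.2 a).mono e le_rfl⟩, fun z hz q a b =>
    have k := h.tube z hz q a b
    ⟨k.1, bd_le k.2.1 e le_rfl, k.2.2.1, bd_le k.2.2.2 e le_rfl⟩, fun z hz x a =>
    ⟨(h.nat z hz x a).1, (h.nat z hz x a).2.mono e le_rfl⟩⟩

/-- The hypotheses of pb_near. -/
structure Pn (k : ℕ) (B ε : ℝ) (g0 g : Tw) (D : Set R4) (b : R4 → R4) (z : R4) : Prop where
  le : ε ≤ 1
  l0 : Lv g0 D
  l : Lv g D
  sm : ContDiffAt ℝ ∞ b z
  jb : Jb (k + 1) (fun x => b x - x) z ε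
  seg : ∀ q ∈ segment ℝ (b z) z, q ∈ D ∧ Bd (k + 1) g0 q B
  bd : Bd k (g - g0) (b z) ε

/-- The pull back by a map close to the identity of a metric close to g0 is close to g0. -/
theorem pb_near (k : ℕ) (B : ℝ) : ∃ C, 0 ≤ C ∧ ∀ ε g0 g D b z, Pn k B ε g0 g D b z →
    Bd k (pb b g - g0) z (C * ε) := by
  let J := {i : (ℝ × Tw × Tw) × Set R4 × (R4 → R4) × R4 //
    Pn k B i.1.1 i.1.2.1 i.1.2.2 i.2.1 i.2.2.1 i.2.2.2}
  have d : Oj (k + 1) (fun j : J => j.1.2.2.2) (fun j y => j.1.2.2.1 y - y) fun j => j.1.1.1 :=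
    .of (fun j => j.2.sm.sub contDiffAt_id) fun j => j.2.jb
  have hh : Os (k + 1) (fun j : J => segment ℝ (j.1.2.2.1 j.1.2.2.2) j.1.2.2.2)
      (fun j => tb j.1.1.2.1) 1 :=
    Oj.wt (c := B) (μ := fun _ => B) (Oj.tb (fun i => P354YI.Lv.at i.1.1.2.l0 (i.1.1.2.seg _ i.2).1)
      fun i => (i.1.1.2.seg _ i.2).2) (fun _ => zero_le_one) fun _ => (mul_one _).ge
  have a := oj_pb_id (fun _ => Subset.rfl) d ⟨1, fun j => j.2.le⟩ hh
  have m : ∀ j : J, j.1.2.2.1 j.1.2.2.2 ∈ j.1.2.1 := fun j => (j.2.seg _ (left_mem_segment ℝ _ _)).1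
  have i : Oj k (fun j : J => j.1.2.2.2) (fun _ _ => ContinuousLinearMap.id ℝ R4) 1 := Oj.cst _
  have f : Oj k (fun j : J => j.1.2.2.2) (fun j => fderiv ℝ j.1.2.2.1) 1 :=
    ((d.fd.mono le_rfl (ν := 1) fun j => j.2.le).add i).congr fun j =>
      (ev_dif j.2.sm).mono fun y hy => by
        simp only [fderiv_fun_sub hy differentiableAt_fun_id, fderiv_fun_id, sub_add_cancel]
  have c := Oj.pb (fun j : J => j.2.sm) f
    (oj_sub (fun j : J => ⟨j.2.l, m j⟩) (fun j : J => ⟨j.2.l0, m j⟩) fun j => j.2.bd)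
  obtain ⟨C, C0, hC⟩ := (c.add a).bd' (g := fun j : J => pb j.1.2.2.1 j.1.1.2.2 - j.1.1.2.1)
    fun j => by
      filter_upwards [j.2.l.isOpen.mem_nhds (j.2.seg _ (right_mem_segment ℝ _ _)).1,
        j.2.sm.continuousAt.eventually (j.2.l.isOpen.mem_nhds (m j))] with y h1 h2 v w
      simp only [Pi.sub_apply, pb, add_apply, sub_apply, P354RC.pb_ap,
        (rp_tb j.2.l.isOpen j.2.l.met).eq _ h2, (rp_tb j.2.l0.isOpen j.2.l0.met).eq _ h1]
      ring
  exact ⟨C, C0, fun ε g0 g D b z h => hC ⟨((ε, g0, g), D, b, z), h⟩⟩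

theorem sm_lt (a : ℝ) {c : ℝ} (h : 0 < c) : ∀ᶠ η in 𝓝[>] (0 : ℝ), a * η < c :=
  nhdsWithin_le_nhds ((show ContinuousAt (fun η : ℝ => a * η) 0 by fun_prop).eventually_lt
    continuousAt_const (by simpa using h))

theorem rg2 : RG2 := by
  intro N hN k
  obtain ⟨m0, h0⟩ := P354YQ.reg N hN (k + 1)
  refine ⟨max m0 (k + 1), fun B r r0 e e0 => ?_⟩
  obtain ⟨η0, p0, C, hR⟩ := h0 B r r0
  let sl : ℝ →L[ℝ] R4 →L[ℝ] R4 := ContinuousLinearMap.lsmul ℝ ℝ
  obtain ⟨K, K0, hK⟩ := pb_near k B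
  let L := 2 ^ (k + 1) * ‖sl‖ * |B| * |C| + 1
  obtain ⟨η, ⟨⟨⟨a1, a2⟩, a3⟩, a4⟩, η1⟩ := (((((sm_lt 1 p0).and (sm_lt |C| r0)).and
    (sm_lt L one_pos)).and (sm_lt (K * L) e0)).and self_mem_nhdsWithin).exists
  have ηp : 0 < η := η1
  refine ⟨η, ηp, fun A O D g0 g f π w0 χ h sχ hχ => ?_⟩
  obtain ⟨W, b, oW, AW, WO, P, hW, hA⟩ :=
    hR η A O D g0 g f π w0 (rg_le h (le_max_left _ _)) (by linarith)
  let β : R4 → R4 := fun x => x + χ x • (b x - x)
  have sb : ∀ z ∈ W, ContDiffAt ℝ ∞ b z := fun z hz => P.smooth.contDiffAt (oW.mem_nhds hz)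
  have sc : ∀ z ∈ W, ContDiffAt ℝ ∞ χ z := fun z hz => sχ.contDiffAt (h.opn.mem_nhds (WO hz))
  have sβ : ∀ z ∈ W, ContDiffAt ℝ ∞ β z := fun z hz =>
    contDiffAt_id.add ((sc z hz).smul ((sb z hz).sub contDiffAt_id))
  have jβ : ∀ z ∈ A, Jb (k + 1) (fun x => β x - x) z (L * η) := fun z hz => by
    refine ((jb_bil (k + 1) sl ((hχ z hz).2.mono (le_max_right _ _) (le_abs_self B))
      ((hA z hz).1.mono le_rfl (mul_le_mul_of_nonneg_right (le_abs_self C) ηp.le)) (sc z (AW hz))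
      ((sb z (AW hz)).sub contDiffAt_id)).congr (.of_forall fun x => by simp [β, sl])).mono
      le_rfl ?_
    simp only [L]
    linarith
  have tu : ∀ z ∈ A, ∀ q ∈ segment ℝ (b z) z, dist q z ≤ r ∧ 0 ≤ q.1 := fun z hz q hq =>
    ⟨(convex_closedBall z r).segment_subset (Metric.mem_closedBall.2 (by
      rw [dist_eq_norm]
      exact (hA z hz).1.zero.trans ((mul_le_mul_of_nonneg_right (le_abs_self C) ηp.le).trans a2.le)))
      (Metric.mem_closedBall_self r0.le) hq,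
    ((convex_Ici (0 : ℝ)).is_linear_preimage (LinearMap.fst ℝ ℝ _).isLinear).segment_subset
      (hA z hz).2 (h.bd z hz).1.1 hq⟩
  have sg : ∀ z ∈ A, segment ℝ (β z) z ⊆ segment ℝ (b z) z := fun z hz =>
    (convex_segment _ _).segment_subset (by
      rw [segment_symm, segment_eq_image']
      exact ⟨χ z, (hχ z hz).1, rfl⟩) (right_mem_segment ℝ _ _)
  have tb' := fun z hz q hq => h.tube z hz q (tu z hz q (sg z hz hq)).1 (tu z hz q (sg z hz hq)).2
  let W' := {z ∈ W | β z ∈ D ∧ 0 < LinearMap.det (fderiv ℝ β z : R4 →ₗ[ℝ] R4)}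
  have oW' : IsOpen W' := isOpen_iff_mem_nhds.2 fun z hz => by
    filter_upwards [oW.mem_nhds hz.1, (sβ z hz.1).continuousAt.eventually
      (h.lv.isOpen.mem_nhds hz.2.1), (ContinuousLinearMap.continuous_det.continuousAt.comp
        (P354YI.at_fd (sβ z hz.1)).continuousAt).eventually (lt_mem_nhds hz.2.2)] with y a b c
    exact ⟨a, b, c⟩
  refine ⟨W', β, fun z hz => ⟨AW hz, (tb' z hz _ (left_mem_segment ℝ _ _)).1, ?_⟩,
    fun z hz => WO hz.1, ⟨oW', h.lv.isOpen, h.lv.met, fun z hz => (sβ z hz.1).contDiffWithinAt,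
      fun z hz => hz.2.1, fun z hz => ?_, fun _ _ _ _ => rfl⟩, fun z hz => ⟨hz.2.2, ?_, fun e1 => ?_⟩,
    fun z hz => ?_⟩
  · refine P354YQ.det_near (A := .id ℝ R4) (C := 1) zero_le_one (fun v => by simp) ?_ (by simp)
    have k := (jβ z hz).fd.zero
    rw [fderiv_fun_sub ((sβ z (AW hz)).differentiableAt (by simp)) differentiableAt_fun_id,
      fderiv_fun_id] at k
    rw [one_mul, norm_sub_rev]
    exact k.trans_lt a3
  · exact LinearMap.ker_eq_bot.1 (by_contra fun n =>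
      hz.2.2.ne' (LinearMap.det_eq_zero_iff_ker_ne_bot.2 n))
  · rintro (a | a)
    · simp [β, a]
    · simp [β, ((hW z hz.1).2.2 a).1]
  · have e2 : β =ᶠ[𝓝 z] b := e1.mono fun x hx => by simp [β, hx]
    exact ⟨P354YA.gq_congr (P354YO.pb_map e2).symm (hW z hz.1).2.1, fun a => by
      rw [e2.fderiv_eq]; exact ((hW z hz.1).2.2 a).2⟩
  · refine bd_le (hK (L * η) g0 g D β z ⟨a3.le, h.lv0, h.lv, sβ z (AW hz), jβ z hz, fun q hq =>
      ⟨(tb' z hz q hq).1, bd_le (tb' z hz q hq).2.1 (le_max_right _ _) le_rfl⟩,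
      bd_le (tb' z hz _ (left_mem_segment ℝ _ _)).2.2.2 (by omega) ?_⟩) le_rfl (by linarith)
    exact le_mul_of_one_le_left ηp.le (le_add_of_nonneg_left (by positivity))

end Vale.Agent.P354DT
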