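import Vale.Agent.P354KX.Defs
import Vale.Agent.P354DT.Pl
import Vale.Agent.P354EN.Cal

/-!
SJ: space-time jets of the change of the metric from the space jets of the unknowns.
-/

set_option maxSynthPendingDepth 3

open scoped ContDiff
open Set Filter Topology

noncomputable section

namespace Vale.Agent.P354DT

open Vale.Agent.P354n (R4)
open Vale.Agent.P354H (dt dx e)
open Vale.Agent.P354A (dxl Pb cmp)
open Vale.Agent.P354C
open Vale.Agent.P354GT (Fu)
open Vale.Agent.P354RC (bs cv sum_bs)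
open Vale.Agent.P354XB (Pa)
open Vale.Agent.P354XD (tb rp_tb)
open Vale.Agent.P354XE (Bd)
open Vale.Agent.P354EN (dv dv_congr dv_mul sm_dv)
open Vale.Agent.P354YI (ev_dif)

variable {J : Type} {H μ ν : J → ℝ} {x : J → R4} {n a : ℕ} {f g : J → R4 → ℝ}

/-- The jets of order n of the space derivatives of order at most a. -/
def Cw (H : J → ℝ) (x : J → R4) (n : ℕ) : ℕ → (J → R4 → ℝ) → (J → ℝ) → Prop
  | 0, f, μ => Pl H n x f μ
  | a + 1, f, μ => Pl H n x f μ ∧ ∀ s, Cw H x n a (fun j => dx s (f j)) μ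

namespace Cw

theorem pl (h : Cw H x n a f μ) : Pl H n x f μ := by
  cases a
  exacts [h, h.1]

theorem pred (h : Cw H x n (a + 1) f μ) : Cw H x n a f μ := by
  induction a generalizing f with
  | zero => exact h.1
  | succ a ih => exact ⟨h.1, fun s => ih (h.2 s)⟩

theorem congr (h : Cw H x n a f μ) (k : ∀ j, g j =ᶠ[𝓝 (x j)] f j) : Cw H x n a g μ := by
  induction a generalizing f g with
  | zero => exact Pl.congr h k
  | succ a ih => exact ⟨h.1.congr k, fun s => ih (h.2 s) fun j => dv_congr (k j) _⟩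

theorem wt (h : Cw H x n a f μ) (hν : ∀ j, μ j ≤ ν j) : Cw H x n a f ν := by
  have k : Pl H n x f ν := h.pl.mono 0 (fun j => (h.pl.nn j).trans (hν j)) (by simpa using hν)
  induction a generalizing f with
  | zero => exact k
  | succ a ih =>
    exact ⟨k, fun s => ih (h.2 s) ((h.2 s).pl.mono 0 k.nn (by simpa using hν))⟩

theorem add (h : Cw H x n a f μ) (k : Cw H x n a g μ) :
    Cw H x n a (fun j y => f j y + g j y) μ := by
  induction a generalizing f g with
  | zero => exact Pl.add h k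
  | succ a ih =>
    refine ⟨h.1.add k.1, fun s => (ih (h.2 s) (k.2 s)).congr fun j => ?_⟩
    filter_upwards [ev_dif (h.1.sm j), ev_dif (k.1.sm j)] with q h1 h2
    simp only [dx, fderiv_fun_add h1 h2, add_apply]

theorem mul (h : Cw H x n a f μ) (k : Cw H x n a g 1) :
    Cw H x n a (fun j y => f j y * g j y) μ := by
  induction a generalizing f g with
  | zero => exact Pl.smull h k
  | succ a ih =>
    refine ⟨h.1.smull k.1, fun s => ((ih (h.2 s) k.pred).add (ih h.pred (k.2 s))).congr fun j => ?_⟩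
    filter_upwards [ev_dif (h.1.sm j), ev_dif (k.1.sm j)] with q h1 h2 using dv_mul h1 h2 _

theorem cst (hH : ∀ j, 2 ≤ H j) (c : ℝ) : Cw H x n a (fun _ _ => c) 1 := by
  induction a generalizing c with
  | zero => exact Pl.cst hH c
  | succ a ih => exact ⟨Pl.cst hH c, fun s => (ih 0).congr fun _ => .of_forall fun q => by simp [dx]⟩

theorem sub (h : Cw H x n a f μ) (k : Cw H x n a g μ) :
    Cw H x n a (fun j y => f j y - g j y) μ :=
  (h.add (k.mul (cst h.pl.two (-1)))).congr fun _ => .of_forall fun _ => by ring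

theorem base (hH : ∀ j, 2 ≤ H j) (hμ : ∀ j, 0 ≤ μ j) (hs : ∀ j, ContDiffAt ℝ ∞ (f j) (x j)) (N : ℕ)
    (h : ∀ j, Pb a (f j) (x j) (μ j * H j ^ N)) : Cw H x 0 a f μ := by
  have k : Pl H 0 x f μ := .zero hH hμ hs N fun j => h j [] (Nat.zero_le _)
  induction a generalizing f with
  | zero => exact k
  | succ a ih =>
    have h' := fun s j α (hα : α.length ≤ a) => h j (s :: α) (by simpa using hα)
    exact ⟨k, fun s => ih (fun j => sm_dv (hs j) _) (h' s)
      (.zero hH hμ (fun j => sm_dv (hs j) _) N fun j => h' s j [] (Nat.zero_le _))⟩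

theorem step (h : Cw H x n (a + 1) f μ) (k : Cw H x n a (fun j => dt (f j)) μ) :
    Cw H x (n + 1) a f μ := by
  have p : ∀ {a f}, Cw H x n (a + 1) f μ → Cw H x n a (fun j => dt (f j)) μ →
      Pl H (n + 1) x f μ := fun {a f} h k => by
    have q : ∀ i, Pl H n x (fun j y => fderiv ℝ (f j) y (bs i)) μ := fun i => by
      fin_cases i
      exacts [k.pl, (h.2 0).pl, (h.2 1).pl, (h.2 2).pl]
    refine (h.1.le n.zero_le).succ ((Pl.sum Finset.univ h.1.two h.1.nn fun i _ =>
      (q i).smull (.cst h.1.two (cv i))).congr' fun j y => ContinuousLinearMap.ext fun v => ?_)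
    conv_lhs => rw [← sum_bs v]
    simp [mul_comm]
  induction a generalizing f with
  | zero => exact p h k
  | succ a ih =>
    refine ⟨p h k, fun s => ih (h.2 s) ((k.2 s).congr fun j => ?_)⟩
    filter_upwards [((h.1.sm j).of_le (m := 2) (by norm_cast)).eventually (by simp)] with q hq
    have d : DifferentiableAt ℝ (fderiv ℝ (f j)) q :=
      (hq.fderiv_right (m := 1) (by norm_num)).differentiableAt (by simp)
    unfold dt dx
    rw [fderiv_clm_apply d (differentiableAt_const _), fderiv_clm_apply d (differentiableAt_const _)]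
    simpa using hq.isSymmSndFDerivAt (by simp) _ _

end Cw

/-- Two families and their difference. -/
def Df (H : J → ℝ) (x : J → R4) (μ : J → ℝ) (n a : ℕ) (f : Bool → J → R4 → ℝ) : Prop :=
  (∀ b, Cw H x n a (f b) 1) ∧ Cw H x n a (fun j y => f true j y - f false j y) μ

namespace Df
variable {f g : Bool → J → R4 → ℝ}

theorem congr (h : Df H x μ n a f) (k : ∀ b j, g b j =ᶠ[𝓝 (x j)] f b j) : Df H x μ n a g :=
  ⟨fun b => (h.1 b).congr (k b), h.2.congr fun j => (k _ j).sub (k _ j)⟩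

theorem congr' (h : Df H x μ n a f) (k : ∀ b j y, g b j y = f b j y) : Df H x μ n a g :=
  h.congr fun b j => .of_forall (k b j)

theorem pred (h : Df H x μ n (a + 1) f) : Df H x μ n a f := ⟨fun b => (h.1 b).pred, h.2.pred⟩

theorem add (h : Df H x μ n a f) (k : Df H x μ n a g) :
    Df H x μ n a fun b j y => f b j y + g b j y :=
  ⟨fun b => (h.1 b).add (k.1 b), (h.2.add k.2).congr fun _ => .of_forall fun _ => by ring⟩

theorem mul (h : Df H x μ n a f) (k : Df H x μ n a g) :
    Df H x μ n a fun b j y => f b j y * g b j y :=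
  ⟨fun b => (h.1 b).mul (k.1 b), ((h.2.mul (k.1 true)).add (k.2.mul (h.1 false))).congr
    fun _ => .of_forall fun _ => by ring⟩

theorem cst (h : Df H x μ n a f) (c : ℝ) : Df H x μ n a fun _ _ _ => c :=
  ⟨fun _ => .cst h.2.pl.two c, (h.2.sub h.2).congr fun _ => .of_forall fun _ => by ring⟩

theorem sub (h : Df H x μ n a f) (k : Df H x μ n a g) :
    Df H x μ n a fun b j y => f b j y - g b j y :=
  (h.add (k.mul (h.cst (-1)))).congr' fun _ _ _ => by ring

theorem dv_sub (h : Df H x μ n a f) (v : R4) (j : J) :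
    dv v (fun y => f true j y - f false j y) =ᶠ[𝓝 (x j)]
      fun y => dv v (f true j) y - dv v (f false j) y := by
  filter_upwards [ev_dif ((h.1 true).pl.sm j), ev_dif ((h.1 false).pl.sm j)] with q h1 h2
  simp only [dv, fderiv_fun_sub h1 h2, sub_apply]

theorem dx (h : Df H x μ n (a + 1) f) (s : Fin 3) : Df H x μ n a fun b j => dx s (f b j) :=
  ⟨fun b => (h.1 b).2 s, (h.2.2 s).congr fun j => (h.dv_sub _ j).symm⟩

theorem step (h : Df H x μ n (a + 1) f) (k : Df H x μ n a fun b j => dt (f b j)) :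
    Df H x μ (n + 1) a f :=
  ⟨fun b => (h.1 b).step (k.1 b), h.2.step (k.2.congr fun j => h.dv_sub _ j)⟩

theorem list {ι : Type} (h : Df H x μ n a f) (L : List ι) {F : ι → Bool → J → R4 → ℝ}
    (k : ∀ t, Df H x μ n a (F t)) : Df H x μ n a fun b j y => (L.map fun t => F t b j y).sum := by
  induction L with
  | nil => exact h.cst 0
  | cons t L ih => exact ((k t).add ih).congr' fun _ _ _ => by simp

theorem inv (h : Df H x μ n 0 f) (N : ℕ) (k : ∀ b j, (H j ^ N)⁻¹ ≤ f b j (x j)) :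
    Df H x μ n 0 fun b j y => (f b j y)⁻¹ := by
  have i : ∀ b, Cw H x n 0 (fun j y => (f b j y)⁻¹) 1 := fun b =>
    Pl.rinv N (fun j => (k b j).trans (le_abs_self _)) (h.1 b)
  have p : ∀ b j, ∀ᶠ y in 𝓝 (x j), f b j y ≠ 0 := fun b j =>
    ((h.1 b).pl.sm j).continuousAt.eventually_ne
      ((inv_pos.2 (pow_pos (two_pos.trans_le (h.2.pl.two j)) N)).trans_le (k b j)).ne'
  refine ⟨i, (((h.2.mul (i true)).mul (i false)).mul (.cst h.2.pl.two (-1))).congr fun j => ?_⟩
  filter_upwards [p true j, p false j] with y h1 h2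
  field_simp
  ring

end Df

section sys
variable {U : Bool → J → R4 → Ix → ℝ}

/-- The space part of the derivative along the frame. -/
def sp (U : R4 → Ix → ℝ) (y : R4) (k : Fin 4) (i : Ix) : ℝ :=
  E (U y) k 1 * dx 0 (cmp U i) y + E (U y) k 2 * dx 1 (cmp U i) y + E (U y) k 3 * dx 2 (cmp U i) y

theorem dfr_sp (U : R4 → Ix → ℝ) (y : R4) (k : Fin 4) (i : Ix) :
    dfr U y k i = E (U y) k 0 * dt (cmp U i) y + sp U y k i := by
  have : fr (U y) k = E (U y) k 0 • ((1, 0) : R4) + (E (U y) k 1 • (0, e 0) +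
    E (U y) k 2 • (0, e 1) + E (U y) k 3 • (0, e 2)) := by simp [fr, vec, e]
  simp only [dfr, this, map_add, map_smul, smul_eq_mul]
  rfl

theorem ang_sp (U : R4 → Ix → ℝ) (y : R4) (L : List (ℤ × Fin 2 × Ix)) :
    angS (dfr U y) L = angS (sp U y) L := by
  refine congrArg List.sum (List.map_congr_left fun t _ => ?_)
  rw [dfr_sp, show E (U y) (ai t.2.1) 0 = 0 by
    generalize t.2.1 = s
    fin_cases s <;> rfl, zero_mul, zero_add]

theorem c_pos (i : Ix) : ((cN i + cL i : ℤ) : ℝ) ≠ 0 := by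
  have : cN i + cL i ≠ 0 := by cases i <;> decide
  exact_mod_cast this

theorem df_dt (h : ∀ i, Df H x μ n (a + 1) fun b j => cmp (U b j) i)
    (F : ∀ b j, ∀ᶠ y in 𝓝 (x j), Full (U b j y) (dfr (U b j) y)) (i : Ix) :
    Df H x μ n a fun b j => dt (cmp (U b j) i) := by
  have u := fun i => (h i).pred
  have c := (u i).cst
  have hE : ∀ k m, Df H x μ n a fun b j y => E (U b j y) k m := fun k m => by
    fin_cases k <;> fin_cases m <;> first | exact c _ | exact u _
  have s : ∀ k i, Df H x μ n a fun b j y => sp (U b j) y k i := fun k i =>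
    (((hE k 1).mul ((h i).dx 0)).add ((hE k 2).mul ((h i).dx 1))).add ((hE k 3).mul ((h i).dx 2))
  have A : ∀ L, Df H x μ n a fun b j y => angS (sp (U b j) y) L := fun L =>
    (u i).list L fun t => (c _).mul (s _ _)
  have B : ∀ L, Df H x μ n a fun b j y => linS (U b j y) L := fun L =>
    (u i).list L fun t => (c _).mul (u _)
  have C : ∀ L, Df H x μ n a fun b j y => quadS (U b j y) L := fun L =>
    (u i).list L fun t => (c _).mul ((u _).mul (u _))
  refine ((c (-((cN i + cL i : ℤ) : ℝ)⁻¹)).mul ((((((c (cN i)).mul (s 1 i)).add (A (angN i))).add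
    (B (linN i))).add (C (quadN i))).add (((((c (cL i)).mul (s 0 i)).add (A (angL i))).add
    (B (linL i))).add (C (quadL i))))).congr fun b j => (F b j).mono fun y hy => ?_
  have e1 := hy.eqN i
  have e2 := hy.eqL i
  rw [resN, ang_sp, dfr_sp, show E (U b j y) 1 0 = 1 from rfl] at e1
  rw [resL, ang_sp, dfr_sp, show E (U b j y) 0 0 = 1 from rfl] at e2
  have := c_pos i
  simp only [neg_mul]
  rw [eq_neg_iff_add_eq_zero, ← mul_right_inj' this, mul_add, mul_inv_cancel_left₀ this]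
  push_cast
  linear_combination e1 + e2

theorem df_all {k : ℕ} (h : ∀ i, Df H x μ 0 k fun b j => cmp (U b j) i)
    (F : ∀ b j, ∀ᶠ y in 𝓝 (x j), Full (U b j y) (dfr (U b j) y)) (i : Ix) :
    Df H x μ k 0 fun b j => cmp (U b j) i := by
  have : ∀ n a, n + a = k → ∀ i, Df H x μ n a fun b j => cmp (U b j) i := fun n => by
    induction n with
    | zero => exact fun a e => by rwa [← zero_add a, e]
    | succ n ih => exact fun a e i => (ih (a + 1) (by omega) i).step (df_dt (ih _ (by omega)) F i)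
  exact this k 0 rfl i

theorem df_det (h : ∀ i, Df H x μ n a fun b j => cmp (U b j) i) :
    Df H x μ n a fun b j y => detP (U b j y) := ((h _).mul (h _)).sub ((h _).mul (h _))

theorem df_met (h : ∀ i, Df H x μ n 0 fun b j => cmp (U b j) i) (N : ℕ)
    (k : ∀ b j, (H j ^ N)⁻¹ ≤ detP (U b j (x j))) (v w : R4) :
    Df H x μ n 0 fun b j y => met (U b j) y v w := by
  have c := (h .O).cst
  have i := (df_det h).inv N k
  have t : ∀ v m, Df H x μ n 0 fun b j y => th (U b j y) v m := fun v m => by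
    have p := (c v.2.2.1).sub ((h .b1).mul (c ((v.1 + v.2.1) / 2)))
    have q := (c v.2.2.2).sub ((h .b2).mul (c ((v.1 + v.2.1) / 2)))
    fin_cases m
    exacts [c _, c _, (((h _).mul p).sub ((h _).mul q)).mul i, (((h _).mul q).sub ((h _).mul p)).mul i]
  exact (((h .O).mul (h .O)).mul ((((c (-2)).mul (((t v 0).mul (t w 1)).add
    ((t v 1).mul (t w 0)))).add ((t v 2).mul (t w 2))).add ((t v 3).mul (t w 3)))).congr'
    fun _ _ _ => by simp only [met, eta, P354A.cmp]; ring

end sys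

/-- The hypotheses of SJ. -/
structure Sj (k : ℕ) (G l E : ℝ) (U U' : R4 → Ix → ℝ) (B : Set R4) (p : R4) : Prop where
  op : IsOpen B
  mem : p ∈ B
  fu : Fu U B
  fu' : Fu U' B
  G2 : 2 ≤ G
  l1 : 1 ≤ l
  det : G⁻¹ ≤ detP (U p)
  bd : ∀ i, Pb k (cmp U i) p G ∧ Pa l k (cmp (U' - U) i) p E
  E1 : E ≤ 1

theorem sj : P354KX.SJ := by
  intro k
  let J := {i : (ℝ × ℝ × ℝ) × ((R4 → Ix → ℝ) × (R4 → Ix → ℝ)) × Set R4 × R4 //
    Sj k i.1.1 i.1.2.1 i.1.2.2 i.2.1.1 i.2.1.2 i.2.2.1 i.2.2.2}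
  let H : J → ℝ := fun j => j.1.1.2.1 * j.1.1.1
  let x : J → R4 := fun j => j.1.2.2.2
  let μ : J → ℝ := fun j => j.1.1.2.2
  let U : Bool → J → R4 → Ix → ℝ := fun b j => bif b then j.1.2.1.2 else j.1.2.1.1
  have GH : ∀ j : J, j.1.1.1 ≤ H j := fun j =>
    le_mul_of_one_le_left (zero_le_two.trans j.2.G2) j.2.l1
  have hH : ∀ j, 2 ≤ H j := fun j => j.2.G2.trans (GH j)
  have hμ : ∀ j, 0 ≤ μ j := fun j =>
    (abs_nonneg _).trans (by simpa [P354K.n0] using (j.2.bd .O).2 [] (Nat.zero_le _))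
  have fu : ∀ b j, Fu (U b j) j.1.2.2.1 := fun b j => by
    cases b
    exacts [j.2.fu, j.2.fu']
  have sm : ∀ b i j, ContDiffAt ℝ ∞ (cmp (U b j) i) (x j) := fun b i j =>
    ((fu b j).1 i).contDiffAt (j.2.op.mem_nhds j.2.mem)
  have h0 : ∀ i, Df H x μ 0 k fun b j => cmp (U b j) i := fun i => by
    have a : Cw H x 0 k (fun j => cmp (U false j) i) 1 := .base hH (fun _ => zero_le_one)
      (sm _ i) 1 fun j α hα => ((j.2.bd i).1 α hα).trans (by simpa using GH j)
    have d : Cw H x 0 k (fun j y => cmp (U true j) i y - cmp (U false j) i y) μ :=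
      .base hH hμ (fun j => (sm _ i j).sub (sm _ i j)) k fun j α hα =>
        ((j.2.bd i).2 α hα).trans (mul_le_mul_of_nonneg_left ((pow_le_pow_right₀ j.2.l1
          (List.count_le_length.trans hα)).trans (pow_le_pow_left₀ (zero_le_one.trans j.2.l1)
          (le_mul_of_one_le_right (zero_le_one.trans j.2.l1) (one_le_two.trans j.2.G2)) k)) (hμ j))
    refine ⟨fun b => ?_, d⟩
    cases b
    exacts [a, ((d.wt fun j => j.2.E1).add a).congr fun _ => .of_forall fun _ => by ring]
  have h1 := df_all h0 fun b j =>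
    (j.2.op.eventually_mem j.2.mem).mono fun y hy => ((fu b j).2 y hy).2.2
  obtain ⟨N, hN⟩ := (df_det h1).2.pl.val
  let I := {j : J // μ j * H j ^ (N + 2) ≤ 1}
  have dd : ∀ b (i : I), (H i.1 ^ 2)⁻¹ ≤ detP (U b i.1 (x i.1)) := fun b i => by
    have g := i.1.2.G2
    have h2 := hH i.1
    have a1 : (H i.1)⁻¹ ≤ detP (U false i.1 (x i.1)) :=
      (inv_anti₀ (by linarith) (GH i.1)).trans i.1.2.det
    have a2 : μ i.1 * H i.1 ^ N ≤ (H i.1 ^ 2)⁻¹ := by
      rw [← one_div, le_div_iff₀ (by positivity), mul_assoc, ← pow_add]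
      exact i.2
    have a3 : 2 * (H i.1 ^ 2)⁻¹ ≤ (H i.1)⁻¹ := by
      rw [← div_eq_mul_inv, ← one_div, div_le_div_iff₀ (by positivity) (by positivity)]
      nlinarith
    have a4 := (abs_le.1 (hN i.1)).1
    have a5 : 0 < (H i.1 ^ 2)⁻¹ := by positivity
    cases b <;> linarith
  have h2 : ∀ i, Df (fun i : I => H i.1) (fun i => x i.1) (fun i => μ i.1) k 0
      fun b j => cmp (U b j.1) i := fun i => ⟨fun b => Pl.ix ((h1 i).1 b) _, Pl.ix (h1 i).2 _⟩
  obtain ⟨M, hM⟩ := (Pl.tb (g := fun i : I => met (U true i.1) - met (U false i.1))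
    fun a b => (df_met h2 2 dd (bs a) (bs b)).2).bd'
    (g := fun i : I => met (U true i.1) - met (U false i.1)) fun i =>
      (i.1.2.op.eventually_mem i.1.2.mem).mono fun y hy v w => by
        simp only [P354YI.tb_sub, Pi.sub_apply, sub_apply,
          (rp_tb i.1.2.op ((fu _ i.1).vac i.1.2.op).2.2).eq y hy]
  refine ⟨k, N + 2 + M, fun G l E V V' B p o m f f' g l1 _ d b s => ?_⟩
  have E0 : 0 ≤ E := (abs_nonneg _).trans (by simpa [P354K.n0] using (b .O).2 [] (Nat.zero_le _))
  have o1 : 1 ≤ l * G := one_le_mul_of_one_le_of_one_le l1 (one_le_two.trans g)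
  have w : ∀ r ≤ N + 2 + M, E * (l * G) ^ r ≤ E * (l * G) ^ (N + 2 + M) := fun r hr =>
    mul_le_mul_of_nonneg_left (pow_le_pow_right₀ o1 hr) E0
  exact fun r hr v u => (hM ⟨⟨((G, l, E), (V, V'), B, p), o, m, f, f', g, l1, d, b,
    by simpa using (w 0 (Nat.zero_le _)).trans s⟩, (w _ (Nat.le_add_right _ _)).trans s⟩
    r hr v u).trans (mul_le_mul_of_nonneg_right (w _ (Nat.le_add_left _ _)) (by positivity))

end Vale.Agent.P354DT
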